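import Crest.Agent.N207.Sk.Dyn

/-!
# Row 207 (helper40): master skeleton, part 2': the primed statements (FROZEN; these are the ones
used in the final assembly)

The extension is flat outside a ball, with slow uniform decay and an integral bound on `Ric`.
-/

set_option autoImplicit false
set_option linter.unusedSectionVars false

open scoped ContDiff Manifold Topology
open Set MeasureTheory Filter
open Crest.GeometryTopology.CoordMetric Crest.GeometryTopology.ChartCurvature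
  Crest.GeometryTopology.MetricFamily

noncomputable section

namespace Crest.Agent.N207.Sk

variable {M : Type*} [TopologicalSpace M] [ChartedSpace E4 M] [IsManifold 𝓘(ℝ, E4) ∞ M]
  [T3Space M] [ConnectedSpace M] [MeasurableSpace M] [BorelSpace M]

/-- an extension `G`, flat outside a ball, of the inside of the neck `N` (`a = ρ/32`, `b = ρ/4`) -/
structure Ext' (g : Met 4 M) (N : Nk M) (G : MetricField 4) (ρ e y η : ℝ) (Cs : ℕ → ℝ) (V : ℝ) :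
    Prop where
  top : N.Top
  a_eq : N.a = ρ / 32
  b_eq : N.b = ρ / 4
  card : (Nat.card N.Γ : ℝ) ≤ V
  riem : IsRiemannianOn G {x | ρ / 32 < ‖x‖}
  inv : ∀ γ ∈ N.Γ, ∀ x : E4, ρ / 32 < ‖x‖ → matT G x = pullT γ (matT G) x
  eq : ∀ x ∈ shell N.a N.b, G x = g.pm N.Ψ x
  jet : ∀ x : E4, ρ / 32 < ‖x‖ → JG 4 G x ‖x‖ (η * √(ρ / 32 / ‖x‖))
  all : ∀ x : E4, ρ / 32 < ‖x‖ → JAll Cs G x ‖x‖ (√(ρ / 32 / ‖x‖))
  flat : ∃ R' : ℝ, ∀ x : E4, R' ≤ ‖x‖ → G x = 1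
  ric_int : IntegrableOn (fun x : E4 => ‖x‖ ^ 2 * ∑ i, ∑ j, ricci G x i j ^ 2) {x | ρ / 32 < ‖x‖}
  ric : ∫ x in {x : E4 | ρ / 32 < ‖x‖}, ‖x‖ ^ 2 * ∑ i, ∑ j, ricci G x i j ^ 2 ≤ (e * ρ) ^ 2
  vol : g.vol.real N.In ≤ V * ρ ^ 4
  mass : mass g N.In ≤ y ^ 2

/-- `φ` is, up to `V ρ⁴`, the action of an admissible extension -/
def Adm' (g : Met 4 M) (ρ e y η : ℝ) (Cs : ℕ → ℝ) (V φ : ℝ) : Prop :=
  ∃ (N : Nk M) (G : MetricField 4), Ext' g N G ρ e y η Cs V ∧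
    |φ - act G (3 * (ρ / 32)) / Nat.card N.Γ| ≤ V * ρ ^ 4

/-- block Phi: the action along the flow -/
def PHI' (F : Flow M) : Prop :=
  ∃ (m : ℕ) (η1 : ℝ), 0 < η1 ∧ ∀ (m1 : ℕ) (η : ℝ) (Cs : ℕ → ℝ) (V R ηa : ℝ), m ≤ m1 → η ≤ η1 →
    0 < R → R ≤ 1 → 0 < ηa →
    ∃ (C A0 V' : ℝ) (Cs' : ℕ → ℝ) (W : ℝ → Nk M → ℝ → ℝ → Prop), 0 < C ∧ 128 ≤ A0 ∧
      (∀ s ∈ late F, ∀ (N : Nk M) (ρ : ℝ), N.Top → N.b = R → A0 * N.a ≤ ρ → A0 * ρ ≤ R →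
        Good (F.m s) N m1 η Cs V → ∃ φ, W s N ρ φ) ∧
      (∀ (N : Nk M) (t0 t1 ρ : ℝ) (e : ℝ → ℝ) (e0 e1 p0 p1 : ℝ), F.T / 2 ≤ t0 → t0 < t1 →
        t1 < F.T → N.Top → N.b = R → A0 * N.a ≤ ρ → A0 * ρ ≤ R →
        (∀ s ∈ Icc t0 t1, Good (F.m s) N m1 η Cs V) → IntervalIntegrable e volume t0 t1 →
        IntervalIntegrable (fun s => e s ^ 2) volume t0 t1 →
        (∀ s ∈ Ioo t0 t1, Ebd (F.m s) N m ρ (e s)) → Ebd (F.m t0) N m ρ e0 →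
        Ebd (F.m t1) N m ρ e1 → W t0 N ρ p0 → W t1 N ρ p1 →
        IntervalIntegrable (fun s => mass (F.m s) (N.Om (ρ / 16))) volume t0 t1 ∧
        |p1 - p0 - 2 * ∫ s in t0..t1, mass (F.m s) (N.Om (ρ / 16))| ≤
          C * (∫ s in t0..t1, e s ^ 2) + C * ρ ^ 2 * (e0 ^ 2 + e1 ^ 2)) ∧
      (∀ s N ρ φ, W s N ρ φ → |φ| ≤ C * ρ ^ 2 ∧ ∀ e, Ebd (F.m s) N m ρ e →
        Adm' (F.m s) ρ (C * e) √(mass (F.m s) (N.Om ρ)) ηa Cs' V' φ) ∧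
      ∀ L : ℝ, 1 ≤ L → ∃ C' : ℝ, 0 < C' ∧ ∀ s N N' ρ ρ' φ φ' e e', W s N ρ φ → W s N' ρ' φ' →
        ρ ≤ L * ρ' → ρ' ≤ L * ρ → Cmp N N' (min ρ ρ' / 64) R → Ebd (F.m s) N m ρ e →
        Ebd (F.m s) N' m ρ' e' → |φ - φ'| ≤ C' * ρ ^ 2 * (e ^ 2 + e' ^ 2) + C' * ρ ^ 5

/-- the weak Lojasiewicz inequality (blocks I - O) -/
def WL' (F : Flow M) : Prop :=
  ∃ ηa : ℝ, 0 < ηa ∧ ∀ (Cs : ℕ → ℝ) (V η0 : ℝ), 0 < η0 → ∃ δ C : ℝ, 0 < δ ∧ 0 < C ∧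
    ∀ t ∈ late F, ∀ ρ e y φ : ℝ, 0 < ρ → ρ ≤ δ → 0 ≤ e → e ≤ δ → 0 ≤ y → y ≤ δ →
      |φ| ≤ δ * ρ ^ 2 → Adm' (F.m t) ρ e y ηa Cs V φ → |φ| ≤ η0 * ρ ^ 2 * (y + e) + C * ρ ^ 4

end Crest.Agent.N207.Sk

end
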