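import Crest.Agent.N207.Sk.Sta
import Crest.Agent.N207.Sk.Dyn2
import Crest.Agent.N207.K.Hd4

/-!
# Row 207 (helper40): master skeleton, part 3': the static statement on trees (FROZEN; the one
used in the final assembly)

Block I proves `SWL' M → WL' F`; blocks J - O prove `SWL' M`.
-/

set_option autoImplicit false

open scoped ContDiff Topology ENNReal
open Set MeasureTheory Filter
open Crest.GeometryTopology.CoordMetric Crest.GeometryTopology.MetricFamily

noncomputable section

namespace Crest.Agent.N207.Sk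

open I

variable {M : Type*}

/-- the total scalar curvature -/
def SR (T : TD M) (L : T.V → ℝ) (G : T.S → MetricField 4) : ℝ :=
  (T.glob L).int T.χ G fun s x => scalarCurv (G s) x

/-- flat outside a ball at the root end -/
def Flat (T : TD M) (G : T.S → MetricField 4) : Prop :=
  ∃ R' : ℝ, ∀ x : E4, R' ≤ ‖x‖ → G (Sum.inr T.root) x = 1

/-- the weak Lojasiewicz inequality on trees -/
def SWL' (M : Type*) : Prop :=
  ∀ (T : TD M) (g : T.V → T.S → MetricField 4) (U : Ultrafilter ℕ) (L : ℕ → T.V → ℝ)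
    (G : ℕ → T.S → MetricField 4) (E : ℕ → ℝ), T.Ok → (∀ v, (T.base v).Conn) →
    T.Lim g (1 / 2) → T.Seq g (1 / 2) U L G → (∀ᶠ i in (U : Filter ℕ), Flat T (G i)) →
    (∀ i, 0 ≤ E i) → (∀ᶠ i in (U : Filter ℕ), EE T (L i) (G i) ≤ ENNReal.ofReal (E i ^ 2)) →
    Tendsto E U (𝓝 0) → Tendsto (fun i => SR T (L i) (G i)) U (𝓝 0) →
    ∀ η : ℝ, 0 < η → ∀ᶠ i in (U : Filter ℕ), |SR T (L i) (G i)| ≤ η * E i

end Crest.Agent.N207.Sk

end
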