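import Crest.Agent.N207.Sk.Dyn
import Crest.Agent.N207.I.Defs

/-!
# Row 207 (helper40): master skeleton, part 3: the static statement on trees (FROZEN)

Block I proves `SWL M → WL F`; blocks J - O prove `SWL M`.
-/

set_option autoImplicit false

open scoped ContDiff Topology ENNReal
open Set MeasureTheory Filter
open Crest.GeometryTopology.CoordMetric Crest.GeometryTopology.MetricFamily

noncomputable section

namespace Crest.Agent.N207.Sk

open I

variable {M : Type*}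

/-- the local scale on `glob L`, in the units of the root -/
def rw (T : TD M) (L : T.V → ℝ) (s : T.S) (x : E4) : ℝ :=
  T.eps L (T.un s) * Sum.elim (fun _ => (1 : ℝ)) (fun _ => ‖x‖) s

/-- `∫ r² |Ric|²` -/
def EE (T : TD M) (L : T.V → ℝ) (G : T.S → MetricField 4) : ℝ≥0∞ :=
  (T.glob L).lint T.χ G fun s x => ENNReal.ofReal (rw T L s x ^ 2 * nsq (G s) (ricT (G s)) x)

/-- the cutoff at the root end -/
def cutR (T : TD M) (s : T.S) (x : E4) : ℝ := if s = Sum.inr T.root then cut 3 x else 1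

/-- the Einstein-Hilbert action `∫ R - ` flux at infinity -/
def SS (T : TD M) (L : T.V → ℝ) (G : T.S → MetricField 4) : ℝ :=
  ((T.glob L).int T.χ G fun s x => cutR T s x * scalarCurv (G s) x) +
    act (G (Sum.inr T.root)) 3 / Nat.card (T.Γ T.root)

/-- fast decay at the root end -/
def Fast (T : TD M) {ι : Type} (l : Filter ι) (G : ι → T.S → MetricField 4) : Prop :=
  ∀ k : ℕ, ∃ C : ℝ, ∀ᶠ i in l, ∀ p q, ∀ x : E4, 1 < ‖x‖ →
    ‖iteratedFDeriv ℝ k (TD.dv (G i (Sum.inr T.root)) p q) x‖ * ‖x‖ ^ k ≤ C / ‖x‖ ^ 3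

/-- the weak Lojasiewicz inequality on trees -/
def SWL (M : Type*) : Prop :=
  ∀ (T : TD M) (g : T.V → T.S → MetricField 4) (U : Ultrafilter ℕ) (L : ℕ → T.V → ℝ)
    (G : ℕ → T.S → MetricField 4) (E : ℕ → ℝ), T.Ok → T.Lim g (1 / 2) → T.Seq g (1 / 2) U L G →
    Fast T U G → (∀ i, 0 ≤ E i) → (∀ᶠ i in (U : Filter ℕ), EE T (L i) (G i) ≤ ENNReal.ofReal (E i ^ 2)) →
    Tendsto E U (𝓝 0) → Tendsto (fun i => SS T (L i) (G i)) U (𝓝 0) →
    ∀ η : ℝ, 0 < η → ∀ᶠ i in (U : Filter ℕ), |SS T (L i) (G i)| ≤ η * E i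

end Crest.Agent.N207.Sk

end
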