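import Crest.Agent.N207.R.Asm

/-! Row 207, final assembly, part 1 (helper87): a chain of windows on one time interval. -/

set_option autoImplicit false
open Set MeasureTheory

namespace Crest.Agent.N207.As

theorem ii_mono {f : ℝ → ℝ} {a b x y : ℝ} (hf : IntervalIntegrable f volume a b) (h1 : a ≤ x)
    (h2 : x ≤ y) (h3 : y ≤ b) : IntervalIntegrable f volume x y :=
  hf.mono_set (by rw [uIcc_of_le h2, uIcc_of_le (h1.trans (h2.trans h3))]; exact Icc_subset_Icc h1 h3)

/-- `W s u p`: `p` is a value at time `s` in the chart `u`; `k s` is the cost of a cut at `s`. -/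
theorem chain {W : ℝ → ℝ → ℝ → Prop} {a b h0 A B B0 : ℝ} {lo up E k : ℝ → ℝ} (hab : a < b)
    (hh : 0 < h0) (hA : 0 ≤ A) (hB : 0 ≤ B) (hlo : IntervalIntegrable lo volume a b)
    (hup : IntervalIntegrable up volume a b) (hE : IntervalIntegrable E volume a b)
    (hE0 : ∀ s, 0 ≤ E s) (hk1 : ∀ s ∈ Icc a b, k s ≤ B0) (hk2 : ∀ s ∈ Ico a b, k s ≤ E s)
    (ex : ∀ u ∈ Ico a b, ∀ s, u ≤ s → s ≤ u + h0 → s ≤ b → ∃ p, W s u p)
    (win : ∀ u ∈ Ico a b, ∀ x y p p', u ≤ x → x < y → y ≤ u + h0 → y ≤ b → W x u p → W y u p' →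
      (∫ s in x..y, lo s) - A * (k x + k y) ≤ p' - p ∧ p' - p ≤ (∫ s in x..y, up s) + A * (k x + k y))
    (sw : ∀ u ∈ Ico a b, ∀ u' ∈ Ico a b, ∀ s p p', u ≤ u' → u' ≤ s → s ≤ u + h0 → s < b →
      W s u p → W s u' p' → |p - p'| ≤ A * k s + B) {p0 : ℝ} (hp0 : W a a p0) :
    ∃ p1 u1, u1 ∈ Ico a b ∧ b ≤ u1 + h0 ∧ W b u1 p1 ∧
      (∫ s in a..b, lo s) - (18 * A / h0 * (∫ s in a..b, E s) + 2 * (b - a) / h0 * B + 2 * A * B0)
        ≤ p1 - p0 ∧
      p1 - p0 ≤ (∫ s in a..b, up s)
        + (18 * A / h0 * (∫ s in a..b, E s) + 2 * (b - a) / h0 * B + 2 * A * B0) := by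
  obtain ⟨J, hJ⟩ : ∃ J : ℕ, J + 1 = ⌈2 * (b - a) / h0⌉₊ :=
    ⟨⌈2 * (b - a) / h0⌉₊ - 1, by
      have : 0 < ⌈2 * (b - a) / h0⌉₊ := Nat.ceil_pos.2 (div_pos (by linarith) hh)
      omega⟩
  have hJ1 : 2 * (b - a) / h0 ≤ (J : ℝ) + 1 := by
    have := Nat.le_ceil (2 * (b - a) / h0); rw [← hJ] at this; exact_mod_cast this
  have hJ2 : (J : ℝ) ≤ 2 * (b - a) / h0 := by
    have := Nat.ceil_lt_add_one (show 0 ≤ 2 * (b - a) / h0 from (div_pos (by linarith) hh).le)
    rw [← hJ] at this; push_cast at this; linarith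
  set h := (b - a) / ((J : ℝ) + 2) with hdef
  have hJ0 : (0 : ℝ) ≤ J := Nat.cast_nonneg J
  have hp : 0 < h := div_pos (by linarith) (by linarith)
  have hb : a + ((J : ℝ) + 2) * h = b := by rw [hdef]; field_simp; ring
  have h2 : 2 * h ≤ h0 := by
    rw [div_le_iff₀ hh] at hJ1
    rw [hdef, ← mul_div_assoc, div_le_iff₀ (by linarith)]; nlinarith
  have h6 : 1 ≤ J → 1 / h ≤ 6 / h0 := by
    intro h1
    have h1' : (1 : ℝ) ≤ J := by exact_mod_cast h1
    rw [le_div_iff₀ hh] at hJ2
    rw [div_le_div_iff₀ hp hh, hdef, ← mul_div_assoc, le_div_iff₀ (by linarith)]; nlinarith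
  set u : ℕ → ℝ := fun j => a + j * h with hu
  have hu1 : ∀ j, u (j + 1) = u j + h := fun j => by simp only [hu]; push_cast; ring
  have hua : ∀ j, a ≤ u j := fun j => le_add_of_nonneg_right (by positivity)
  have hub : ∀ j, j ≤ J → u j + 2 * h ≤ b := fun j hj => by
    have : (j : ℝ) ≤ J := by exact_mod_cast hj
    rw [← hb]; simp only [hu]; nlinarith
  have hI : ∀ j, j ≤ J → u j ∈ Ico a b := fun j hj => ⟨hua j, by linarith [hub j hj]⟩
  have hu0 : u 0 = a := by simp [hu]
  have hAa : A * k a ≤ A * B0 := mul_le_mul_of_nonneg_left (hk1 a ⟨le_rfl, hab.le⟩) hA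
  have key : ∀ j, j ≤ J → ∀ s p, u j + h ≤ s → s ≤ u j + 2 * h → W s (u j) p →
      (∫ s in a..s, lo s) - (18 * A / h0 * (∫ s in a..u j + h, E s) + j * B + A * B0 + A * k s)
        ≤ p - p0 ∧
      p - p0 ≤ (∫ s in a..s, up s)
        + (18 * A / h0 * (∫ s in a..u j + h, E s) + j * B + A * B0 + A * k s) := by
    intro j
    induction j with
    | zero =>
      intro hj s p h1 h3 hw
      have h4 := win _ (hI 0 hj) a s p0 p hu0.le (by linarith) (by linarith)
        (h3.trans (hub 0 hj)) (by rwa [hu0]) hw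
      have h5 : 0 ≤ 18 * A / h0 * ∫ s in a..u 0 + h, E s :=
        mul_nonneg (by positivity) (intervalIntegral.integral_nonneg (by linarith) fun s _ => hE0 s)
      simp only [Nat.cast_zero, zero_mul, add_zero]
      constructor <;> linarith [h4.1, h4.2]
    | succ j ih =>
      intro hj s p h1 h3 hw
      have hj' : j ≤ J := by omega
      have hb' := hub (j + 1) hj
      have hI' := hI (j + 1) hj
      rw [hu1] at h1 h3 hb' hw hI'
      have ha' := hua j
      obtain ⟨σ, hσ, hσE⟩ := R.exists_good (show u j + h < u j + h + h by linarith)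
        (ii_mono hE (by linarith) (by linarith) (by linarith)) le_rfl
      obtain ⟨r, hr⟩ := ex _ (hI j hj') σ (by linarith [hσ.1]) (by linarith [hσ.2]) (by linarith [hσ.2])
      obtain ⟨r', hr'⟩ := ex _ hI' σ hσ.1.le (by linarith [hσ.2]) (by linarith [hσ.2])
      have hσa : a ≤ σ := by linarith [hσ.1]
      have hσs : σ < s := by linarith [hσ.2]
      have hsb : s ≤ b := by linarith
      have i1 := ih hj' σ r hσ.1.le (by linarith [hσ.2]) hr
      have i2 := win _ hI' σ s r' p hσ.1.le hσs (by linarith) hsb hr' hw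
      have i3 := sw _ (hI j hj') _ hI' σ _ _ (by linarith) hσ.1.le (by linarith [hσ.2])
        (by linarith) hr hr'
      have a1 := intervalIntegral.integral_add_adjacent_intervals (ii_mono hlo le_rfl hσa (by linarith))
        (ii_mono hlo hσa hσs.le hsb)
      have a2 := intervalIntegral.integral_add_adjacent_intervals (ii_mono hup le_rfl hσa (by linarith))
        (ii_mono hup hσa hσs.le hsb)
      have a3 := intervalIntegral.integral_add_adjacent_intervals
        (ii_mono hE le_rfl (show a ≤ u j + h by linarith) (by linarith))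
        (ii_mono hE (show a ≤ u j + h by linarith) (show u j + h ≤ u j + h + h by linarith)
          (by linarith))
      have a4 : 3 * (A * k σ) ≤ 18 * A / h0 * ∫ s in u j + h..u j + h + h, E s := by
        have a5 : 0 ≤ ∫ s in u j + h..u j + h + h, E s :=
          intervalIntegral.integral_nonneg (by linarith) fun s _ => hE0 s
        rw [add_sub_cancel_left] at hσE
        have a6 := (hk2 σ ⟨hσa, by linarith⟩).trans hσE
        calc 3 * (A * k σ) ≤ 3 * (A * ((∫ s in u j + h..u j + h + h, E s) * (1 / h))) := by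
              rw [mul_one_div]; gcongr
          _ ≤ 3 * (A * ((∫ s in u j + h..u j + h + h, E s) * (6 / h0))) := by
              have := h6 (by omega); gcongr
          _ = _ := by ring
      rw [hu1, ← a1, ← a2, ← a3]
      push_cast
      obtain ⟨i4, i5⟩ := abs_le.1 i3
      rw [mul_add (18 * A / h0), add_mul (j : ℝ)]
      rw [mul_add A] at i2
      constructor <;> linarith [i1.1, i1.2, i2.1, i2.2]
  have huJ : u J + 2 * h = b := by rw [← hb]; simp only [hu]; ring
  obtain ⟨p1, hp1⟩ := ex _ (hI J le_rfl) b (by linarith) (by linarith) le_rfl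
  have k1 := key J le_rfl b p1 (by linarith) huJ.ge hp1
  have k2 : 18 * A / h0 * (∫ s in a..u J + h, E s) ≤ 18 * A / h0 * ∫ s in a..b, E s := by
    refine mul_le_mul_of_nonneg_left ?_ (by positivity)
    exact intervalIntegral.integral_mono_interval le_rfl (by linarith [hua J]) (by linarith)
      (ae_of_all _ fun s => hE0 s) hE
  have k3 : (J : ℝ) * B ≤ 2 * (b - a) / h0 * B := mul_le_mul_of_nonneg_right hJ2 hB
  have k4 : A * k b ≤ A * B0 := mul_le_mul_of_nonneg_left (hk1 b ⟨hab.le, le_rfl⟩) hA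
  exact ⟨p1, u J, hI J le_rfl, by linarith, hp1, by linarith [k1.1], by linarith [k1.2]⟩

end Crest.Agent.N207.As
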