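import Crest.Agent.N207.R.Three
import Crest.Agent.N207.R.Asm

/-! Row 207, final assembly, part 2 (helper87): the discrete argument. -/

set_option autoImplicit false
open Finset Filter Topology

namespace Crest.Agent.N207.As

open R

/-- the memory term -/
noncomputable def mm (K l0 : ℝ) (d : ℕ → ℝ) (n : ℕ) : ℝ :=
  1 + ∑ m ∈ range (n - 1), (l0 / K ^ m) ^ (1 / 2 : ℝ) * d (m + 1) ^ (-(3 / 4) : ℝ)

/-- first bound for the memory term -/
theorem mm_le {K l0 c : ℝ} {d : ℕ → ℝ} (hK : 1 < K) (h0 : 0 < l0) (hc : 0 < c)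
    (hd : ∀ n, c * (l0 / K ^ n) ≤ d n) :
    ∃ A x, 0 ≤ A ∧ 1 < x ∧ x ^ 4 = K ∧ ∀ n, mm K l0 d n ≤ A * x ^ n := by
  have hK0 : 0 < K := by linarith
  set x := K ^ (1 / 4 : ℝ) with hx
  have hx1 : 1 < x := Real.one_lt_rpow hK (by norm_num)
  have hx0 : 0 < x := by linarith
  have hx4 : x ^ 4 = K := by
    rw [hx, ← Real.rpow_natCast, ← Real.rpow_mul hK0.le]; norm_num
  have r4 : ∀ (u : ℝ), 0 < u → ∀ (k : ℕ) (e : ℝ), (k : ℝ) = 4 * e → (u ^ 4) ^ e = u ^ k := by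
    intro u hu k e he
    rw [← Real.rpow_natCast u 4, ← Real.rpow_mul hu.le, ← Real.rpow_natCast u k, he]; norm_num
  set A1 := l0 ^ (1 / 2 : ℝ) * (c * l0) ^ (-(3 / 4) : ℝ) * x ^ 3 with hA1
  have hA10 : 0 ≤ A1 := by positivity
  have p1 : ∀ m : ℕ, (l0 / K ^ m) ^ (1 / 2 : ℝ) * d (m + 1) ^ (-(3 / 4) : ℝ) ≤ A1 * x ^ m := by
    intro m
    have ha : (l0 / K ^ m) ^ (1 / 2 : ℝ) = l0 ^ (1 / 2 : ℝ) / x ^ (2 * m) := by
      rw [Real.div_rpow h0.le (by positivity), ← hx4, ← pow_mul, mul_comm 4 m, pow_mul,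
        r4 _ (by positivity) 2 _ (by norm_num), ← pow_mul, mul_comm m 2]
    have h1 : c * (l0 / K ^ (m + 1)) = c * l0 / (x ^ (m + 1)) ^ 4 := by
      rw [← hx4, ← pow_mul, ← pow_mul, mul_comm 4]; ring
    have h2 := Real.rpow_le_rpow_of_nonpos (by positivity) (hd (m + 1))
      (show (-(3 / 4) : ℝ) ≤ 0 by norm_num)
    rw [h1, Real.div_rpow (by positivity) (by positivity),
      Real.rpow_neg (x := (x ^ (m + 1)) ^ 4) (by positivity), r4 _ (by positivity) 3 _ (by norm_num),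
      div_inv_eq_mul] at h2
    rw [ha]
    refine (mul_le_mul_of_nonneg_left h2 (by positivity)).trans (le_of_eq ?_)
    simp only [hA1]; field_simp; ring
  have h4 : 0 < x - 1 := by linarith
  refine ⟨1 + A1 / (x - 1), x, by positivity, hx1, hx4, fun n => ?_⟩
  have h1 := sum_le_sum (s := range (n - 1)) fun m _ => p1 m
  rw [← mul_sum] at h1
  have h2 := geo_sum_le hx1 (n - 1)
  have h3 : x ^ (n - 1) ≤ x ^ n := pow_le_pow_right₀ hx1.le (by omega)
  have h5 : A1 * ∑ m ∈ range (n - 1), x ^ m ≤ A1 * (x ^ n / (x - 1)) := by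
    refine mul_le_mul_of_nonneg_left (h2.trans ?_) hA10; gcongr
  have h6 : (1 : ℝ) ≤ x ^ n := one_le_pow₀ hx1.le
  have h7 : (1 + A1 / (x - 1)) * x ^ n = x ^ n + A1 * (x ^ n / (x - 1)) := by ring
  unfold mm
  linarith

/-- the output of the continuous part -/
structure Dis (K l0 c CE C θ : ℝ) (n1 : ℕ) (d be Z E P p q : ℕ → ℝ) : Prop where
  K_ge : 2 ≤ K
  l0_pos : 0 < l0
  c_pos : 0 < c
  CE_nn : 0 ≤ CE
  C_nn : 0 ≤ C
  θ_nn : 0 ≤ θ
  θ_le : θ ≤ 1
  θ_le' : 3 * CE * θ * K ^ 12 ≤ 1 / 32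
  d_ge : ∀ n, c * (l0 / K ^ n) ≤ d n
  d_sum : Summable d
  be_eq : ∀ n : ℕ, be n = ((n : ℝ) + 1) * mm K l0 d n
  P_eq : ∀ n, P n = (l0 / K ^ n) ^ 4 * (1 + be n ^ 2 * d n)
  Z_nn : ∀ n, 0 ≤ Z n
  drop : ∀ n, n1 ≤ n → c * (l0 / K ^ n) ^ 4 ≤ d n * (Z n + (l0 / K ^ n) ^ 4)
  Z_le : ∀ n, n1 ≤ n → Z n ≤ C * ((l0 / K ^ n) ^ 2 * d n)
  E_le : ∀ n, n1 ≤ n → E (n + 2) ≤ θ * (Z n + Z (n + 1) + Z (n + 2)) + C * (P n + P (n + 1) + P (n + 2))
  p_le : ∀ n, n1 + 2 ≤ n → |p n| ≤ C * (l0 / K ^ n) ^ 2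
  p_lo : ∀ n, n1 + 2 ≤ n → 2 * Z n - CE * E n - C * P n ≤ p (n + 1) - p n
  p_up : ∀ n, n1 + 2 ≤ n → p (n + 1) - p n ≤ C * ((l0 / K ^ n) ^ 2 * d n) + CE * E n + C * P n
  q_lo : ∀ n, n1 + 2 ≤ n → -(CE * E n) - C * P n ≤ p (n + 1) - q n
  q_up : ∀ n, n1 + 2 ≤ n → p (n + 1) - q n ≤ C * ((l0 / K ^ n) ^ 2 * d n) + CE * E n + C * P n
  wl : ∀ η > 0, ∃ δ > 0, ∃ Cw ≥ 0, ∃ N, ∀ n, N ≤ n → |q n| ≤ δ * (l0 / K ^ n) ^ 2 →
    |q n| ≤ η * (l0 / K ^ n) ^ 2 * √((Z n + E n) / d n) + Cw * (l0 / K ^ n) ^ 4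

theorem sum3 {f : ℕ → ℝ} (hf : ∀ n, 0 ≤ f n) (k N : ℕ) :
    ∑ j ∈ range N, (f (k + j) + f (k + j + 1) + f (k + j + 2)) ≤ 3 * ∑ j ∈ range (N + 2), f (k + j) := by
  induction N with
  | zero => simp only [range_zero, sum_empty]; exact mul_nonneg (by norm_num) (sum_nonneg fun _ _ => hf _)
  | succ N ih =>
    clear ih
    have h : ∀ i, i ≤ 2 → ∑ j ∈ range (N + 1), f (k + j + i) ≤ ∑ j ∈ range (N + 1 + 2), f (k + j) := by
      intro i hi
      have h1 : ∑ j ∈ range (N + 1), f (k + j + i) =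
          ∑ j ∈ (range (N + 1)).map (addRightEmbedding i), f (k + j) := by
        rw [sum_map]; exact sum_congr rfl fun j _ => by rw [add_assoc]; rfl
      rw [h1]
      refine sum_le_sum_of_subset_of_nonneg (fun j hj => ?_) fun _ _ _ => hf _
      obtain ⟨a, ha, rfl⟩ := mem_map.1 hj
      have := mem_range.1 ha
      exact mem_range.2 (by simp only [addRightEmbedding_apply]; omega)
    rw [sum_add_distrib, sum_add_distrib]
    have h0 := h 0 (by omega)
    simp only [add_zero] at h0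
    linarith [h 1 (by omega), h 2 (by omega)]

theorem fin_alg {L l z0 z1 z2 Z0 Z1 Z2 Z3 q E d G Pt a C C4 Cw c η l2 : ℝ} (hl : 0 < l) (hL : 0 ≤ L)
    (hc : 0 < c) (hη : 0 ≤ η) (hd : 0 < d) (hC : 0 ≤ C) (hC4 : 0 ≤ C4) (hG : 0 ≤ G) (ha : 0 ≤ a)
    (hCw : 0 ≤ Cw) (h0 : 0 ≤ z0) (h1 : 0 ≤ z1) (h2 : 0 ≤ z2) (hl2 : 0 ≤ l2) (hl3 : l2 ≤ l)
    (hZ : Z0 + Z1 + Z2 ≤ l ^ 4 * (z0 + z1 + z2)) (hZ2 : Z2 ≤ l ^ 4 * (z0 + z1 + z2))
    (hPt : Pt ≤ l ^ 4 * (2 + G)) (hE : E ≤ (Z0 + Z1 + Z2) + C * Pt) (hdz : c / d ≤ z2)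
    (hq : q ≤ η * l2 ^ 2 * √((Z2 + E) / d) + Cw * l2 ^ 4)
    (h3 : Z3 ≤ q + a * (Z0 + Z1 + Z2) + C4 * Pt) (s1 : a * L ≤ 1 / 32)
    (s2 : η * (1 + 1 / c) * L ≤ 1 / 32) :
    Z3 * L / l ^ 4 + 1 ≤ 1 / 16 * (z0 + z1 + z2) + (1 + L * (2 * η * C + Cw + 2 * C4)) * (1 + G) := by
  set s := z0 + z1 + z2 with hs
  have hs0 : 0 ≤ s := by positivity
  have hl4 : 0 < l ^ 4 := by positivity
  set X := 2 * s + C * (2 + G) with hX
  have hX0 : 0 ≤ X := by positivity
  have e1 : Z2 + E ≤ l ^ 4 * X := by nlinarith [mul_le_mul_of_nonneg_left hPt hC]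
  have e2 : 1 / d ≤ s / c := by
    rw [div_le_iff₀ hd] at hdz
    rw [div_le_div_iff₀ hd hc]; nlinarith [mul_nonneg (add_nonneg h0 h1) hd.le]
  have e3 : √((Z2 + E) / d) ≤ l ^ 2 * ((X + s / c) / 2) := by
    refine Real.sqrt_le_iff.2 ⟨by positivity, ?_⟩
    calc (Z2 + E) / d = (Z2 + E) * (1 / d) := by ring
      _ ≤ l ^ 4 * X * (s / c) := mul_le_mul e1 e2 (by positivity) (by positivity)
      _ = l ^ 4 * (X * (s / c)) := by ring
      _ ≤ l ^ 4 * ((X + s / c) / 2) ^ 2 := by gcongr; nlinarith [sq_nonneg (X - s / c)]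
      _ = _ := by ring
  have e4 : q ≤ l ^ 4 * (η * ((X + s / c) / 2) + Cw) := by
    refine hq.trans ?_
    calc _ ≤ η * l ^ 2 * (l ^ 2 * ((X + s / c) / 2)) + Cw * l ^ 4 := by gcongr
      _ = _ := by ring
  have e5 : Z3 ≤ l ^ 4 * (η * ((X + s / c) / 2) + Cw + a * s + C4 * (2 + G)) := by
    nlinarith [mul_le_mul_of_nonneg_left hZ ha, mul_le_mul_of_nonneg_left hPt hC4]
  have e6 : Z3 * L / l ^ 4 ≤ (η * ((X + s / c) / 2) + Cw + a * s + C4 * (2 + G)) * L := by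
    rw [div_le_iff₀ hl4]; nlinarith [mul_le_mul_of_nonneg_right e5 hL]
  have e7 : η * ((X + s / c) / 2) ≤ η * (1 + 1 / c) * s + η * C * (2 * (1 + G)) := by
    have : (X + s / c) / 2 ≤ (1 + 1 / c) * s + C * (2 * (1 + G)) := by
      have : 0 ≤ s / c := by positivity
      have : 1 / c * s = s / c := by ring
      nlinarith [mul_nonneg hC hG]
    nlinarith [mul_le_mul_of_nonneg_left this hη]
  have e8 := mul_le_mul_of_nonneg_right e7 hL
  have e9 := mul_le_mul_of_nonneg_right s1 hs0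
  have e10 := mul_le_mul_of_nonneg_right s2 hs0
  nlinarith [mul_nonneg (mul_nonneg hL hCw) hG, mul_nonneg (mul_nonneg hL hC4) hG]

theorem Dis.false {K l0 c CE C θ : ℝ} {n1 : ℕ} {d be Z E P p q : ℕ → ℝ}
    (H : Dis K l0 c CE C θ n1 d be Z E P p q) : False := by
  have hK : 1 < K := by linarith [H.K_ge]
  have hK0 : 0 < K := by linarith
  have hl0 := H.l0_pos
  have hc := H.c_pos
  have hC := H.C_nn
  have hCE := H.CE_nn
  have hθ := H.θ_nn
  set l : ℕ → ℝ := fun n => l0 / K ^ n with hl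
  have hlp : ∀ n, 0 < l n := fun n => by positivity
  have hla : ∀ n j, l (n + j) ≤ l n := fun n j =>
    div_le_div_of_nonneg_left hl0.le (by positivity) (pow_le_pow_right₀ hK.le (by omega))
  have hdp : ∀ n, 0 < d n := fun n => lt_of_lt_of_le (by positivity) (H.d_ge n)
  set D := ∑' n, d n with hD
  have hdD : ∀ n, d n ≤ D := fun n => H.d_sum.le_tsum n fun m _ => (hdp m).le
  have hD0 : 0 ≤ D := (hdp 0).le.trans (hdD 0)
  have hm1 : ∀ n, 1 ≤ mm K l0 d n := fun n => le_add_of_nonneg_right (sum_nonneg fun m _ =>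
    mul_nonneg (by positivity) (Real.rpow_nonneg (hdp _).le _))
  have hb1 : ∀ n, 1 ≤ be n := fun n => by
    rw [H.be_eq]; exact one_le_mul_of_one_le_of_one_le (by simp) (hm1 n)
  have hP0 : ∀ n, 0 ≤ P n := fun n => by rw [H.P_eq]; have := hdp n; positivity
  obtain ⟨A, x, hA, hx1, hx4, hmA⟩ := mm_le hK hl0 hc H.d_ge
  have hx0 : 0 < x := by linarith
  have hxi : x⁻¹ < 1 := inv_lt_one_of_one_lt₀ hx1
  have hs2 := summable_sq_geo (inv_pos.2 hx0) hxi
  set g : ℕ → ℝ := fun m => d m + l0 ^ 2 * (1 + A ^ 2 * D) * (x⁻¹ ^ m * ((m : ℝ) + 1) ^ 2) with hg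
  have hgs : Summable g := H.d_sum.add (hs2.mul_left _)
  have hdg : ∀ m, d m ≤ g m := fun m => le_add_of_nonneg_right (by positivity)
  have hPg : ∀ m, P m ≤ l m ^ 2 * g m := by
    intro m
    have h1 : be m ≤ ((m : ℝ) + 1) * (A * x ^ m) := by rw [H.be_eq]; have := hmA m; gcongr
    have h2 : be m ^ 2 * d m ≤ (((m : ℝ) + 1) * (A * x ^ m)) ^ 2 * D :=
      mul_le_mul (pow_le_pow_left₀ (by linarith [hb1 m]) h1 2) (hdD m) (hdp m).le (by positivity)
    set y := x ^ m with hy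
    have hy1 : 1 ≤ y := one_le_pow₀ hx1.le
    have hl2 : l m = l0 / y ^ 4 := by simp only [hl, hy]; rw [← hx4, ← pow_mul, ← pow_mul, mul_comm]
    have hm : (1 : ℝ) ≤ ((m : ℝ) + 1) ^ 2 := one_le_pow₀ (by simp)
    have h3 : l m ^ 2 * (1 + be m ^ 2 * d m) ≤
        l0 ^ 2 * (1 + A ^ 2 * D) * (x⁻¹ ^ m * ((m : ℝ) + 1) ^ 2) := by
      rw [hl2, inv_pow, ← hy]
      have h4 : 1 + be m ^ 2 * d m ≤ (1 + A ^ 2 * D) * ((m : ℝ) + 1) ^ 2 * y ^ 7 := by
        have h5 : y ^ 2 ≤ y ^ 7 := pow_le_pow_right₀ hy1 (by norm_num)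
        have h6 : (1 : ℝ) ≤ ((m : ℝ) + 1) ^ 2 * y ^ 7 :=
          one_le_mul_of_one_le_of_one_le hm (one_le_pow₀ hy1)
        have h7 : (((m : ℝ) + 1) * (A * y)) ^ 2 * D ≤ A ^ 2 * D * ((m : ℝ) + 1) ^ 2 * y ^ 7 := by
          calc _ = A ^ 2 * D * ((m : ℝ) + 1) ^ 2 * y ^ 2 := by ring
            _ ≤ _ := by gcongr
        nlinarith
      calc _ ≤ (l0 / y ^ 4) ^ 2 * ((1 + A ^ 2 * D) * ((m : ℝ) + 1) ^ 2 * y ^ 7) := by gcongr
        _ = _ := by field_simp
    rw [H.P_eq]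
    calc _ = l m ^ 2 * (l m ^ 2 * (1 + be m ^ 2 * d m)) := by simp only [hl]; ring
      _ ≤ _ := mul_le_mul_of_nonneg_left (h3.trans (le_add_of_nonneg_left (hdp m).le)) (by positivity)
  have hg0 : ∀ m, 0 ≤ g m := fun m => (hdp m).le.trans (hdg m)
  set tl : ℕ → ℝ := fun k => ∑' j, g (j + k) with htl
  have htl0 : Tendsto tl atTop (𝓝 0) := tendsto_sum_nat_add g
  have hsum : ∀ {f : ℕ → ℝ} {B : ℝ} (k N : ℕ), 0 ≤ B → (∀ j, f (k + j) ≤ B * (l (k + j) ^ 2 * g (k + j))) →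
      ∑ j ∈ range N, f (k + j) ≤ B * (l k ^ 2 * tl k) := by
    intro f B k N hB hf
    calc _ ≤ ∑ j ∈ range N, B * (l k ^ 2 * g (j + k)) := sum_le_sum fun j _ => (hf j).trans (by
            have := hla k j; have := hlp (k + j); have := hg0 (k + j); rw [add_comm j k]; gcongr)
      _ = B * (l k ^ 2 * ∑ j ∈ range N, g (j + k)) := by rw [mul_sum, mul_sum]
      _ ≤ _ := by
        have := ((summable_nat_add_iff k).2 hgs).sum_le_tsum (range N) fun j _ => hg0 _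
        gcongr
  set kap := (K ^ 4)⁻¹ with hkap
  have hkp : 0 < kap := by positivity
  have hK4 : 16 ≤ K ^ 4 := le_trans (by norm_num) (pow_le_pow_left₀ (by norm_num) H.K_ge 4)
  have hk1 : kap ≤ 1 / 2 := by rw [hkap, one_div]; exact inv_anti₀ (by norm_num) (by linarith)
  have hqa : ∀ n m, l (n + m) ^ 4 = l n ^ 4 * kap ^ m := fun n m => by
    simp only [hl, hkap, inv_pow]; field_simp; ring
  have hPs : Summable P := Summable.of_nonneg_of_le hP0 (fun m => (hPg m).trans (by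
    have := hla 0 m; rw [zero_add] at this; have := hlp m; have := hg0 m; gcongr)) (hgs.mul_left (l 0 ^ 2))
  have hPk : ∀ k j, P (k + j) = l k ^ 4 * (kap ^ j + kap ^ j * be (k + j) ^ 2 * d (k + j)) := fun k j => by
    rw [H.P_eq]; change l (k + j) ^ 4 * _ = _; rw [hqa]; ring
  have hG : ∀ k, Summable fun j : ℕ => kap ^ j * be (k + j) ^ 2 * d (k + j) := by
    intro k
    have h1 := ((summable_nat_add_iff k).2 hPs).mul_left (l k ^ 4)⁻¹
    refine Summable.of_nonneg_of_le (fun m => by have := hdp (k + m); positivity) (fun m => ?_) h1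
    have := hlp k
    rw [add_comm m k, hPk, inv_mul_cancel_left₀ (by positivity)]
    exact le_add_of_nonneg_left (by positivity)
  set G : ℕ → ℝ := fun k => ∑' j : ℕ, kap ^ j * be (k + j) ^ 2 * d (k + j) with hGd
  have hG0 : ∀ k, 0 ≤ G k := fun k => tsum_nonneg fun m => by have := hdp (k + m); positivity
  have hPt : ∀ k N, ∑ j ∈ range N, P (k + j) ≤ l k ^ 4 * (2 + G k) := by
    intro k N
    simp only [hPk]
    rw [← mul_sum, sum_add_distrib]
    have h1 : ∑ j ∈ range N, kap ^ j ≤ 2 := by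
      refine (sum_le_sum fun j _ => pow_le_pow_left₀ hkp.le hk1 j).trans ?_
      exact (summable_geometric_two.sum_le_tsum _ fun _ _ => by positivity).trans tsum_geometric_two.le
    have h2 := (hG k).sum_le_tsum (range N) fun m _ => by have := hdp (k + m); positivity
    have := hlp k
    gcongr
  have hEs : ∀ k, n1 ≤ k → ∀ N, ∑ j ∈ range N, E (k + 2 + j) ≤
      θ * (3 * ∑ j ∈ range (N + 2), Z (k + j)) + C * (3 * ∑ j ∈ range (N + 2), P (k + j)) := by
    intro k hk N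
    calc _ ≤ ∑ j ∈ range N, (θ * (Z (k + j) + Z (k + j + 1) + Z (k + j + 2)) +
          C * (P (k + j) + P (k + j + 1) + P (k + j + 2))) := sum_le_sum fun j _ => by
            rw [add_right_comm]; exact H.E_le _ (by omega)
      _ ≤ _ := by
        rw [sum_add_distrib, ← mul_sum, ← mul_sum]
        have := sum3 H.Z_nn k N; have := sum3 hP0 k N
        gcongr
  have hsh : ∀ {f : ℕ → ℝ}, (∀ m, 0 ≤ f m) → ∀ k N,
      ∑ j ∈ range N, f (k + 2 + j) ≤ ∑ j ∈ range (N + 2), f (k + j) := fun {f} hf k N => by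
    rw [add_comm N 2, sum_range_add]
    simp only [add_assoc]
    exact le_add_of_nonneg_left (sum_nonneg fun _ _ => hf _)
  have hP2 := hsh hP0
  have tlo : ∀ k, n1 ≤ k → ∀ N, 2 * ∑ j ∈ range N, Z (k + 3 + j) - CE * ∑ j ∈ range (N + 1), E (k + 2 + j)
      - C * ∑ j ∈ range (N + 1), P (k + 2 + j) ≤ p (k + 3 + N) - q (k + 2) := by
    intro k hk N
    induction N with
    | zero => simpa using H.q_lo (k + 2) (by omega)
    | succ N ih =>
      have h1 := H.p_lo (k + 3 + N) (by omega)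
      rw [sum_range_succ, sum_range_succ _ (N + 1), sum_range_succ _ (N + 1),
        show k + 2 + (N + 1) = k + 3 + N by omega, ← add_assoc]
      linarith
  have tup : ∀ k, n1 ≤ k → ∀ N, p (k + 3 + N) - q (k + 2) ≤
      C * ∑ j ∈ range (N + 1), l (k + 2 + j) ^ 2 * d (k + 2 + j)
      + CE * ∑ j ∈ range (N + 1), E (k + 2 + j) + C * ∑ j ∈ range (N + 1), P (k + 2 + j) := by
    intro k hk N
    induction N with
    | zero => simpa using H.q_up (k + 2) (by omega)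
    | succ N ih =>
      have h1 := H.p_up (k + 3 + N) (by omega)
      rw [sum_range_succ _ (N + 1), sum_range_succ _ (N + 1), sum_range_succ _ (N + 1),
        show k + 2 + (N + 1) = k + 3 + N by omega, ← add_assoc]
      linarith
  have hl0' : Tendsto l atTop (𝓝 0) := tendsto_const_nhds.div_atTop (tendsto_pow_atTop_atTop_of_one_lt hK)
  have hplim : ∀ k, Tendsto (fun N => p (k + 3 + N)) atTop (𝓝 0) := fun k => by
    have h1 : Tendsto p atTop (𝓝 0) := by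
      have h2 := (hl0'.pow 2).const_mul C
      rw [zero_pow two_ne_zero, mul_zero] at h2
      exact squeeze_zero_norm' ((eventually_ge_atTop (n1 + 2)).mono fun n hn => H.p_le n hn) h2
    exact h1.comp (tendsto_atTop_mono (fun N => Nat.le_add_left N (k + 3)) tendsto_id)
  set C5 := C + CE * (θ * (3 * C) + C * 3) + C with hC5
  have hq : ∀ k, n1 ≤ k → |q (k + 2)| ≤ C5 * (l k ^ 2 * tl k) := by
    intro k hk
    have hW : 0 ≤ l k ^ 2 * tl k := mul_nonneg (by positivity) (tsum_nonneg fun _ => hg0 _)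
    have h1 : ∀ N, |p (k + 3 + N) - q (k + 2)| ≤ C5 * (l k ^ 2 * tl k) := by
      intro N
      have a1 := hsum (f := Z) k (N + 1 + 2) hC fun j => (H.Z_le _ (by omega)).trans (by
        have := hdg (k + j); change C * (l (k + j) ^ 2 * _) ≤ _; gcongr)
      have a2 := hsum (f := P) (B := 1) k (N + 1 + 2) zero_le_one fun j => by rw [one_mul]; exact hPg _
      have a3 := hsum (f := fun m => l m ^ 2 * d m) (B := 1) k (N + 1 + 2) zero_le_one fun j => by
        have := hdg (k + j); rw [one_mul]; gcongr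
      have a4 := (hsh (f := fun m => l m ^ 2 * d m) (fun m => by have := hdp m; positivity)
        k (N + 1)).trans a3
      have a5 := hEs k hk (N + 1)
      have a6 := hP2 k (N + 1)
      have a7 : CE * ∑ j ∈ range (N + 1), E (k + 2 + j) ≤
          CE * ((θ * (3 * C) + C * 3) * (l k ^ 2 * tl k)) := by
        refine mul_le_mul_of_nonneg_left (a5.trans ?_) hCE
        calc _ ≤ θ * (3 * (C * (l k ^ 2 * tl k))) + C * (3 * (1 * (l k ^ 2 * tl k))) := by gcongr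
          _ = _ := by ring
      have a8 := mul_le_mul_of_nonneg_left (a6.trans a2) hC
      have a9 := mul_le_mul_of_nonneg_left a4 hC
      have a10 : 0 ≤ ∑ j ∈ range N, Z (k + 3 + j) := sum_nonneg fun _ _ => H.Z_nn _
      have a11 := mul_nonneg hC hW
      rw [abs_le, hC5]
      constructor <;> nlinarith [tlo k hk N, tup k hk N]
    have h2 := ((hplim k).sub_const (q (k + 2))).abs
    rw [zero_sub, abs_neg] at h2
    exact le_of_tendsto' h2 h1
  have hK12 : 1 ≤ K ^ 12 := one_le_pow₀ hK.le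
  have hθ1 : 3 * CE * θ ≤ 1 := by nlinarith [H.θ_le', mul_nonneg hCE hθ]
  set C4 := 3 * CE * C + C with hC4
  have hZ3 : ∀ k, n1 ≤ k → Z (k + 3) ≤ |q (k + 2)| + 3 * CE * θ * (Z k + Z (k + 1) + Z (k + 2))
      + C4 * (l k ^ 4 * (2 + G k)) := by
    intro k hk
    have h1 := ((hplim k).add_const (|q (k + 2)| + 3 * CE * θ * (Z k + Z (k + 1) + Z (k + 2))
      + C4 * (l k ^ 4 * (2 + G k))))
    rw [zero_add] at h1
    refine ge_of_tendsto h1 ((eventually_ge_atTop 1).mono fun N hN => ?_)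
    have a1 := tlo k hk N
    have a2 := mul_le_mul_of_nonneg_left (hEs k hk (N + 1)) hCE
    have a3 := hPt k (N + 1 + 2)
    have a4 := mul_le_mul_of_nonneg_left ((hP2 k (N + 1)).trans a3) hC
    have a5 := mul_le_mul_of_nonneg_left a3 (show 0 ≤ 3 * CE * C by positivity)
    have a6 : ∑ j ∈ range (N + 1 + 2), Z (k + j) =
        Z k + Z (k + 1) + Z (k + 2) + ∑ j ∈ range N, Z (k + 3 + j) := by
      rw [show N + 1 + 2 = 3 + N by omega, sum_range_add]
      simp [sum_range_succ, add_assoc]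
    have a7 := single_le_sum (f := fun j => Z (k + 3 + j)) (s := range N) (a := 0)
      (fun j _ => H.Z_nn _) (mem_range.2 hN)
    have a8 : 0 ≤ ∑ j ∈ range N, Z (k + 3 + j) := sum_nonneg fun _ _ => H.Z_nn _
    have a9 := mul_le_mul_of_nonneg_right hθ1 a8
    rw [a6] at a2
    simp only [Nat.add_zero] at a7
    rw [hC4]
    nlinarith [neg_le_abs (q (k + 2))]
  set η := 1 / (32 * (1 + 1 / c) * K ^ 12) with hη
  have hη0 : 0 < η := by positivity
  obtain ⟨δ, hδ, Cw, hCw, N, hw⟩ := H.wl η hη0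
  obtain ⟨N1, hN1⟩ := eventually_atTop.1 ((htl0.const_mul (C5 * K ^ 4)).eventually
    (gt_mem_nhds (show C5 * K ^ 4 * 0 < δ by simpa using hδ)))
  set z : ℕ → ℝ := fun n => if n1 ≤ n then Z n / l n ^ 4 + 1 else c / d n with hz
  have hze : ∀ n, n1 ≤ n → z n = Z n / l n ^ 4 + 1 := fun n hn => if_pos hn
  have hzg : ∀ n, c / d n ≤ z n := by
    intro n
    by_cases hn : n1 ≤ n
    · have h1 := H.drop n hn
      have := hlp n
      rw [hze n hn, div_add_one (by positivity), div_le_div_iff₀ (hdp n) (by positivity), mul_comm _ (d n)]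
      exact h1
    · exact (if_neg hn).ge
  have hz0 : ∀ n, 0 ≤ z n := fun n => (div_pos hc (hdp n)).le.trans (hzg n)
  have hZz : ∀ k, n1 ≤ k → ∀ j, Z (k + j) ≤ l k ^ 4 * z (k + j) := by
    intro k hk j
    have h1 : Z (k + j) ≤ l (k + j) ^ 4 * z (k + j) := by
      have := hlp (k + j)
      rw [hze _ (by omega), mul_add, mul_div_cancel₀ _ (by positivity)]
      exact le_add_of_nonneg_right (by positivity)
    have := hla k j; have := hlp (k + j); have := hz0 (k + j)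
    exact h1.trans (by gcongr)
  have HH : Hyp3 c (1 + K ^ 12 * (2 * η * C + Cw + 2 * C4)) (1 / 16) kap (max n1 (max N N1)) d z be := by
    refine ⟨hc, by positivity, le_rfl, hkp, by linarith, hdp, H.d_sum, hzg, hb1, fun k hk => ?_⟩
    have hk1 : n1 ≤ k := le_of_max_le_left hk
    have hk2 : N ≤ k := le_of_max_le_left (le_of_max_le_right hk)
    have hk3 : N1 ≤ k := le_of_max_le_right (le_of_max_le_right hk)
    have hlk := hlp k
    have b1 : |q (k + 2)| ≤ δ * l (k + 2) ^ 2 := by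
      refine (hq k hk1).trans ?_
      have b2 : l k ^ 2 = K ^ 4 * l (k + 2) ^ 2 := by simp only [hl]; field_simp; ring
      have b3 := mul_le_mul_of_nonneg_right (hN1 k hk3).le (show 0 ≤ l (k + 2) ^ 2 by positivity)
      rw [b2]; linarith
    have b4 : Z (k + 3) / l (k + 3) ^ 4 = Z (k + 3) * K ^ 12 / l k ^ 4 := by
      rw [hqa k 3, hkap]; field_simp
    have c0 := hZz k hk1 0
    have c1 := hZz k hk1 1
    have c2 := hZz k hk1 2
    rw [add_zero] at c0
    have b5 := hPt k 3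
    simp only [sum_range_succ, range_zero, sum_empty, zero_add, add_zero] at b5
    have b6 := mul_le_of_le_one_left (add_nonneg (add_nonneg (H.Z_nn k) (H.Z_nn (k + 1))) (H.Z_nn (k + 2)))
      H.θ_le
    rw [hze _ (by omega), b4]
    refine fin_alg (Pt := l k ^ 4 * (2 + G k)) (E := E (k + 2)) (Z0 := Z k) (Z1 := Z (k + 1))
      hlk (by positivity) hc hη0.le (hdp (k + 2)) hC (by positivity) (hG0 k)
      (show 0 ≤ 3 * CE * θ by positivity) hCw (hz0 _) (hz0 _) (hz0 _) (hlp (k + 2)).le (hla k 2)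
      (by linarith) (by linarith [H.Z_nn k, H.Z_nn (k + 1)]) le_rfl ?_ (hzg _)
      (hw (k + 2) (by omega) b1) (hZ3 k hk1) H.θ_le' ?_
    · linarith [H.E_le k hk1, mul_le_mul_of_nonneg_left b5 hC]
    · rw [hη]; exact le_of_eq (by field_simp)
  refine HH.two (B := 1) hK hl0 hc ?_ H.d_ge fun n => ?_
  · rw [hkap, inv_mul_le_iff₀ (by positivity), mul_one]
    calc K = K ^ 1 := (pow_one K).symm
      _ ≤ K ^ 4 := pow_le_pow_right₀ hK.le (by norm_num)
  · rw [H.be_eq, one_mul]; rfl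

end Crest.Agent.N207.As
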