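import Crest.Agent.N207.Sk.Dyn2
import Crest.Agent.N207.Sk.As1

/-! Row 207, final assembly, part 3 (helper87): one time interval. -/

set_option autoImplicit false
set_option linter.unusedSectionVars false

open scoped Manifold ContDiff Topology
open Set MeasureTheory Filter

namespace Crest.Agent.N207.As

open Sk

variable {M : Type*} [TopologicalSpace M] [ChartedSpace E4 M] [IsManifold 𝓘(ℝ, E4) ∞ M]
  [T3Space M] [ConnectedSpace M] [MeasurableSpace M] [BorelSpace M] [CompactSpace M]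

/-- what is used about `|Ric|²` at a fixed time -/
structure Gm (g : Met 4 M) : Prop where
  fin : IsFiniteMeasure g.vol
  nn : ∀ p, 0 ≤ g.rc 0 p
  int : Integrable (g.rc 0) g.vol

theorem gm_of {F : Flow M} (hB : Base F) {s : ℝ} (hs : s ∈ late F) : Gm (F.m s) := by
  have h0 : 0 < s := (half_pos F.hT).trans_le hs.1
  have hs' : s ∈ Ioo 0 F.hc.T := ⟨h0, hs.2⟩
  have hf : IsFiniteMeasure (F.m s).vol := hB.ok.int.fin s hs'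
  have hT : s < F.T := hs.2
  have hc : Continuous ((F.m s).rc 0) := hB.ok.alg.s0_cont (hB.ok.alg.sm_s0
    (hB.ok.alg.sm_Q (a := s) (b := (s + F.T) / 2) 0 ⟨h0, by linarith, show _ < F.T by linarith⟩) s
    ⟨le_rfl, by linarith⟩)
  exact ⟨hf, hB.ok.evo.Q_nonneg 0 s hs',
    hc.integrable_of_hasCompactSupport (HasCompactSupport.of_compactSpace _)⟩

theorem Gm.mono {g : Met 4 M} (h : Gm g) {A B : Set M} (hAB : A ⊆ B) : mass g A ≤ mass g B :=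
  setIntegral_mono_set h.int.integrableOn (ae_of_all _ h.nn) hAB.eventuallyLE

theorem Gm.mass_nn {g : Met 4 M} (h : Gm g) (A : Set M) : 0 ≤ mass g A :=
  integral_nonneg h.nn

theorem Om_mono (N : Nk M) {r r' : ℝ} (h : r ≤ r') : N.Om r ⊆ N.Om r' :=
  union_subset_union_right _ (image_mono fun _ hx => ⟨hx.1, hx.2.trans_le h⟩)

theorem ebd_nn {g : Met 4 M} {N : Nk M} {m : ℕ} {ρ e : ℝ} (h : Ebd g N m ρ e) : 0 ≤ e := by
  obtain ⟨J, -, -, h⟩ := h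
  have := h 0
  simp only [Finset.range_zero, Finset.sum_empty, add_zero, mul_one] at this
  exact (sq_nonneg ρ).trans this

theorem Gm.mass_le {g : Met 4 M} (h : Gm g) {N : Nk M} {m : ℕ} {ρ e V : ℝ} (hN : N.Top)
    (h1 : N.a < ρ / 32) (h2 : ρ ≤ N.b / 4) (hE : Ebd g N m ρ e)
    (hV : g.vol.real (N.Om ρ) ≤ V * ρ ^ 4) :
    mass g (N.Om ρ) ≤ mass g (N.Om (ρ / 32)) + V * e ^ 2 := by
  have ha := hN.a_pos
  have hρ : 0 < ρ := by linarith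
  have hf := h.fin
  have hm : MeasurableSet (N.Om (ρ / 32)) := (hN.opn _ ⟨h1, by linarith⟩).measurableSet
  have he := ebd_nn hE
  obtain ⟨J, hJ0, hJ, hJe⟩ := hE
  have hp : ∀ p ∈ N.Om ρ \ N.Om (ρ / 32), ‖g.rc 0 p‖ ≤ (e / ρ ^ 2) ^ 2 := by
    rintro p ⟨hp | ⟨x, hx, rfl⟩, hp'⟩
    · exact absurd (Or.inl hp) hp'
    have h3 : ρ / 32 ≤ ‖x‖ := not_lt.1 fun h3 => hp' (Or.inr ⟨x, ⟨hx.1, h3⟩, rfl⟩)
    obtain ⟨j, j1, j2⟩ := exists_nat_pow_near (x := ‖x‖ / (ρ / 64)) (y := 2)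
      (by rw [le_div_iff₀ (by linarith)]; linarith) one_lt_two
    rw [le_div_iff₀ (by linarith)] at j1
    rw [div_lt_iff₀ (by linarith)] at j2
    have h4 := hJ j x j1 j2.le (hx.2.le.trans h2) 0 (Nat.zero_le _)
    rw [pow_zero, one_mul] at h4
    have h5 : J j ≤ e / ρ ^ 2 := by
      have h6 := hJe (j + 1)
      have h7 : 0 ≤ ∑ i ∈ Finset.range j, J i := Finset.sum_nonneg fun i _ => hJ0 i
      rw [Finset.sum_range_succ] at h6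
      rw [le_div_iff₀ (by positivity)]
      nlinarith [sq_nonneg ρ]
    rw [Real.norm_of_nonneg (h.nn _)]
    exact (Real.sqrt_le_left (by positivity)).1 (h4.trans h5)
  have a1 := integral_inter_add_sdiff (s := N.Om ρ) hm h.int.integrableOn
  have a2 : mass g (N.Om ρ ∩ N.Om (ρ / 32)) ≤ mass g (N.Om (ρ / 32)) := h.mono inter_subset_right
  have a3 := norm_setIntegral_le_of_norm_le_const (μ := g.vol) (measure_lt_top _ _) hp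
  have a4 : g.vol.real (N.Om ρ \ N.Om (ρ / 32)) ≤ V * ρ ^ 4 :=
    (measureReal_mono sdiff_subset).trans hV
  have a5 : (e / ρ ^ 2) ^ 2 * g.vol.real (N.Om ρ \ N.Om (ρ / 32)) ≤ V * e ^ 2 :=
    (mul_le_mul_of_nonneg_left a4 (by positivity)).trans (le_of_eq (by field_simp))
  unfold mass at a2 ⊢
  linarith [(le_abs_self _).trans a3]

section
variable {F : Flow M} {τ : TopD M} {m1 : ℕ} {η V : ℝ} {Cs : ℕ → ℝ}

theorem lam_pos (h : τ.Ok F m1 η Cs V) (n : ℕ) : 0 < τ.lam n :=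
  div_pos h.l0_pos (pow_pos (by linarith [h.K_ge]) n)

theorem lam_succ (h : τ.Ok F m1 η Cs V) (n : ℕ) : τ.lam n = τ.K * τ.lam (n + 1) := by
  have : 0 < τ.K := by linarith [h.K_ge]
  unfold TopD.lam; field_simp; ring

theorem lam_le (h : τ.Ok F m1 η Cs V) (n : ℕ) : τ.K * τ.lam n ≤ τ.R := by
  have hK := h.K_ge
  have h1 : τ.lam n ≤ τ.l0 := div_le_self h.l0_pos.le (one_le_pow₀ (by linarith))
  have h2 : τ.K * τ.lam n ≤ τ.K ^ 2 * τ.l0 :=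
    mul_le_mul (by nlinarith) h1 (lam_pos h n).le (by positivity)
  exact h2.trans h.l0_le

theorem t_lt (h : τ.Ok F m1 η Cs V) (n : ℕ) : τ.t n < τ.t (n + 1) := by
  have h1 := h.d_ge n
  have h2 := mul_pos h.c_pos (lam_pos h n)
  unfold TopD.d at h1; linarith

theorem mem_late (h : τ.Ok F m1 η Cs V) {n : ℕ} {s : ℝ} (h1 : τ.t n ≤ s) (h2 : s ≤ τ.t (n + 1)) :
    s ∈ late F :=
  ⟨(h.t0.trans ((strictMono_nat_of_lt_succ (t_lt h)).monotone (Nat.zero_le n))).trans h1,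
    h2.trans_lt (h.lt _)⟩

theorem P_ge (h : τ.Ok F m1 η Cs V) (n : ℕ) :
    τ.lam n ^ 4 ≤ τ.P n ∧ τ.lam n ^ 4 * τ.d n ≤ τ.P n := by
  have hd : ∀ n, 0 < τ.d n := fun n => sub_pos.2 (t_lt h n)
  have h1 : 1 ≤ τ.be n := one_le_mul_of_one_le_of_one_le (by simp) (le_add_of_nonneg_right
    (Finset.sum_nonneg fun j _ => div_nonneg (Real.sqrt_nonneg _) (Real.rpow_nonneg (hd _).le _)))
  have h2 : τ.d n ≤ τ.be n ^ 2 * τ.d n := le_mul_of_one_le_left (hd n).le (one_le_pow₀ h1)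
  have h3 : 0 ≤ τ.lam n ^ 4 := by positivity
  have := hd n
  exact ⟨le_mul_of_one_le_right h3 (by linarith), mul_le_mul_of_nonneg_left (by linarith) h3⟩

end

/-- the data of the final assembly -/
structure Geo (F : Flow M) (τ : TopD M) (m m1 : ℕ) (η : ℝ) (Cs : ℕ → ℝ) (V A0 C0 C1 C' L : ℝ)
    (n0 : ℕ) (W : ℝ → Nk M → ℝ → ℝ → Prop) (ρ : ℕ → ℝ) (e : ℕ → ℝ → ℝ) : Prop where
  gm : ∀ s ∈ late F, Gm (F.m s)
  ok : τ.Ok F m1 η Cs V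
  C0_pos : 0 < C0
  C1_pos : 0 < C1
  C'_pos : 0 < C'
  A0_ge : 128 ≤ A0
  ρ_lo : ∀ n, 64 * τ.K ^ 2 * τ.lam n ≤ ρ n
  ρ_lo' : ∀ n, A0 * τ.lam n ≤ ρ n
  ρ_up : ∀ n, ρ n ≤ L * τ.lam n
  ρ_R : ∀ n, n0 ≤ n → A0 * ρ n ≤ τ.R
  small : ∀ n, n0 ≤ n → 18 * (C0 + 2 * C') * L ^ 2 * τ.lam n ≤ τ.c
  ex : ∀ s ∈ late F, ∀ (N : Nk M) (ρ : ℝ), N.Top → N.b = τ.R → A0 * N.a ≤ ρ → A0 * ρ ≤ τ.R →
    Good (F.m s) N m1 η Cs V → ∃ φ, W s N ρ φ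
  win : ∀ (N : Nk M) (t0 t1 ρ : ℝ) (e : ℝ → ℝ) (e0 e1 p0 p1 : ℝ), F.T / 2 ≤ t0 → t0 < t1 →
    t1 < F.T → N.Top → N.b = τ.R → A0 * N.a ≤ ρ → A0 * ρ ≤ τ.R →
    (∀ s ∈ Icc t0 t1, Good (F.m s) N m1 η Cs V) → IntervalIntegrable e volume t0 t1 →
    IntervalIntegrable (fun s => e s ^ 2) volume t0 t1 →
    (∀ s ∈ Ioo t0 t1, Ebd (F.m s) N m ρ (e s)) → Ebd (F.m t0) N m ρ e0 →
    Ebd (F.m t1) N m ρ e1 → W t0 N ρ p0 → W t1 N ρ p1 →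
    IntervalIntegrable (fun s => mass (F.m s) (N.Om (ρ / 16))) volume t0 t1 ∧
    |p1 - p0 - 2 * ∫ s in t0..t1, mass (F.m s) (N.Om (ρ / 16))| ≤
      C0 * (∫ s in t0..t1, e s ^ 2) + C0 * ρ ^ 2 * (e0 ^ 2 + e1 ^ 2)
  sw : ∀ s N N' ρ ρ' φ φ' e e', W s N ρ φ → W s N' ρ' φ' →
    ρ ≤ L * τ.K * ρ' → ρ' ≤ L * τ.K * ρ → Cmp N N' (min ρ ρ' / 64) τ.R → Ebd (F.m s) N m ρ e →
    Ebd (F.m s) N' m ρ' e' → |φ - φ'| ≤ C' * ρ ^ 2 * (e ^ 2 + e' ^ 2) + C' * ρ ^ 5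
  ie : ∀ n, n0 ≤ n → IntervalIntegrable (e n) volume (τ.t n) (τ.t (n + 1))
  ie2 : ∀ n, n0 ≤ n → IntervalIntegrable (fun s => e n s ^ 2) volume (τ.t n) (τ.t (n + 1))
  eb : ∀ n, n0 ≤ n → ∀ u ∈ τ.I n, ∀ s, u ≤ s → s ≤ u + τ.c * τ.lam n →
    (s < τ.t (n + 1) → Ebd (F.m s) (τ.N u) m (ρ n) (e n s)) ∧
    (s ≤ τ.t (n + 1) → Ebd (F.m s) (τ.N u) m (ρ n) (C1 * τ.lam n))

namespace Geo

variable {F : Flow M} {τ : TopD M} {m m1 : ℕ} {η : ℝ} {Cs : ℕ → ℝ} {V A0 C0 C1 C' L : ℝ}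
  {n0 : ℕ} {W : ℝ → Nk M → ℝ → ℝ → Prop} {ρ : ℕ → ℝ} {e : ℕ → ℝ → ℝ}
  (G : Geo F τ m m1 η Cs V A0 C0 C1 C' L n0 W ρ e)
include G

theorem rad (n : ℕ) : τ.lam n ≤ τ.K * τ.lam n ∧ τ.K * (τ.K * τ.lam n) ≤ ρ n / 64 ∧
    τ.K * τ.lam n ≤ ρ n / 64 ∧ 1 ≤ L ∧ 0 < ρ n := by
  have hK := G.ok.K_ge
  have hl := lam_pos G.ok n
  have h1 := G.ρ_lo n
  have h2 : τ.lam n ≤ τ.K * τ.lam n := le_mul_of_one_le_left hl.le (by linarith)
  have h3 : τ.K * τ.lam n ≤ τ.K * (τ.K * τ.lam n) := le_mul_of_one_le_left (by linarith) (by linarith)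
  have h4 : τ.K * (τ.K * τ.lam n) ≤ ρ n / 64 := by linarith
  exact ⟨h2, h4, h3.trans h4, le_of_mul_le_mul_right (by linarith [G.ρ_up n]) hl, by linarith⟩

theorem radR {n : ℕ} (hn : n0 ≤ n) : 128 * ρ n ≤ τ.R :=
  (mul_le_mul_of_nonneg_right G.A0_ge (G.rad n).2.2.2.2.le).trans (G.ρ_R n hn)

theorem ex' {n : ℕ} (hn : n0 ≤ n) {u s : ℝ} (hu : u ∈ τ.I n) (h1 : u ≤ s)
    (h2 : s ≤ u + τ.c * τ.lam n) (h3 : s ≤ τ.t (n + 1)) : ∃ φ, W s (τ.N u) (ρ n) φ :=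
  have hs := mem_late G.ok (hu.1.trans h1) h3
  G.ex s hs _ _ (G.ok.top n u hu) (G.ok.b_eq n u hu) (by rw [G.ok.a_eq n u hu]; exact G.ρ_lo' n)
    (G.ρ_R n hn) (G.ok.good n u hu s h1 h2 hs.2)

theorem im {n : ℕ} (hn : n0 ≤ n) :
    IntervalIntegrable (τ.ms F (ρ n / 32)) volume (τ.t n) (τ.t (n + 1)) := by
  obtain ⟨h1, -, h2, -, h3⟩ := G.rad n
  exact G.ok.int n _ ⟨by linarith, by linarith [G.radR hn]⟩

/-- the truncated error function -/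
theorem trunc {n : ℕ} (hn : n0 ≤ n) : ∃ ε : ℝ → ℝ,
    (∀ u ∈ τ.I n, ∀ s, u ≤ s → s ≤ u + τ.c * τ.lam n → s ≤ τ.t (n + 1) →
      Ebd (F.m s) (τ.N u) m (ρ n) (ε s)) ∧
    (∀ s, ε s ≤ C1 * τ.lam n) ∧ (∀ s ∈ Icc (τ.t n) (τ.t (n + 1)), 0 ≤ ε s) ∧
    ∀ s, s < τ.t (n + 1) → ε s ≤ e n s := by
  have hc := mul_pos G.ok.c_pos (lam_pos G.ok n)
  refine ⟨fun s => if s < τ.t (n + 1) ∧ e n s ≤ C1 * τ.lam n then e n s else C1 * τ.lam n,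
    fun u hu s h1 h2 h3 => ?_, fun s => ?_, fun s hs => ?_, fun s hs => ?_⟩ <;>
    beta_reduce <;> split_ifs with h
  · exact (G.eb n hn u hu s h1 h2).1 h.1
  · exact (G.eb n hn u hu s h1 h2).2 h3
  · exact h.2
  · exact le_rfl
  · exact ebd_nn ((G.eb n hn s ⟨hs.1, h.1⟩ s le_rfl (by linarith)).1 h.1)
  · exact (mul_pos G.C1_pos (lam_pos G.ok n)).le
  · exact le_rfl
  · exact (not_le.1 fun h' => h ⟨hs, h'⟩).le

/-- comparison of the masses in two charts -/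
theorem cmp_mass {n : ℕ} (hn : n0 ≤ n) {u s : ℝ} (hu : u ∈ τ.I n) (h1 : u ≤ s)
    (h2 : s ≤ u + τ.c * τ.lam n) (h3 : s < τ.t (n + 1)) :
    τ.ms F (ρ n / 32) s ≤ mass (F.m s) ((τ.N u).Om (ρ n / 16)) ∧
      mass (F.m s) ((τ.N u).Om (ρ n / 16)) ≤ V * (ρ n / 8) ^ 2 := by
  obtain ⟨r1, -, r2, -, r3⟩ := G.rad n
  have r4 := G.radR hn
  have hs : s ∈ τ.I n := ⟨hu.1.trans h1, h3⟩
  have hg := G.gm s (mem_late G.ok hs.1 h3.le)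
  have hc := G.ok.cmp n n u hu s hs _ le_rfl le_rfl (by
    rw [abs_sub_comm, abs_of_nonneg (by linarith)]
    linarith [mul_le_mul_of_nonneg_left r1 G.ok.c_pos.le])
  have c1 := (hc (ρ n / 16) ⟨by linarith, by linarith⟩).2
  have c2 := (hc (ρ n / 8) ⟨by linarith, by linarith⟩).1
  rw [show ρ n / 16 / 2 = ρ n / 32 by ring] at c1
  rw [show ρ n / 8 / 2 = ρ n / 16 by ring] at c2
  exact ⟨hg.mono c1, (hg.mono c2).trans (G.ok.zb n s hs _ ⟨by linarith, by linarith⟩)⟩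

theorem V_nn : 0 ≤ V := by
  have hl := lam_pos G.ok 0
  have hs : τ.t 0 ∈ τ.I 0 := ⟨le_rfl, t_lt G.ok 0⟩
  have h1 := G.ok.zb 0 _ hs (τ.lam 0) ⟨le_rfl, (G.rad 0).1.trans (lam_le G.ok 0)⟩
  have h2 := (G.gm _ (mem_late G.ok hs.1 hs.2.le)).mass_nn ((τ.N (τ.t 0)).Om (τ.lam 0))
  exact nonneg_of_mul_nonneg_left (h2.trans h1) (by positivity)

/-- a good time for the Lojasiewicz inequality -/
theorem good {n : ℕ} (hn : n0 ≤ n) : ∃ s ∈ τ.I n, ∃ ε, 0 ≤ ε ∧ ε ≤ C1 * τ.lam n ∧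
    Ebd (F.m s) (τ.N s) m (ρ n) ε ∧ τ.ms F (ρ n) s ≤ V * ρ n ^ 2 ∧
    √(τ.ms F (ρ n) s) + C0 * ε ≤
      (√(1 + V) + C0) * √((τ.Z F ρ n + ∫ s in τ.t n..τ.t (n + 1), e n s ^ 2) / τ.d n) := by
  obtain ⟨ε, e1, e2, e3, e4⟩ := G.trunc hn
  obtain ⟨r1, -, r2, -, r3⟩ := G.rad n
  have r4 := G.radR hn
  have hl := lam_pos G.ok n
  have hc := mul_pos G.ok.c_pos hl
  have hV := G.V_nn
  obtain ⟨s, hs, h1⟩ := R.exists_good (t_lt G.ok n) ((G.im hn).add (G.ie2 n hn))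
    (intervalIntegral.integral_add (G.im hn) (G.ie2 n hn)).le
  have hs' : s ∈ τ.I n := ⟨hs.1.le, hs.2⟩
  have hl' := mem_late G.ok hs.1.le hs.2.le
  have hg := G.gm s hl'
  have hE := e1 s hs' s le_rfl (by linarith) hs.2.le
  have h0 := e3 s ⟨hs.1.le, hs.2.le⟩
  have hr : ρ n ∈ Icc (τ.lam n) τ.R := ⟨by linarith, by linarith⟩
  have h2 := hg.mass_le (G.ok.top n s hs') (by rw [G.ok.a_eq n s hs']; linarith)
    (by rw [G.ok.b_eq n s hs']; linarith) hE (G.ok.vol n s hs' s le_rfl (by linarith) hl'.2 _ hr)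
  refine ⟨s, hs', ε s, h0, e2 s, hE, G.ok.zb n s hs' _ hr, ?_⟩
  set X := (τ.Z F ρ n + ∫ s in τ.t n..τ.t (n + 1), e n s ^ 2) / τ.d n with hX
  have h3 : τ.ms F (ρ n / 32) s + e n s ^ 2 ≤ X := h1
  have h4 : ε s ^ 2 ≤ e n s ^ 2 := pow_le_pow_left₀ h0 (e4 s hs.2) 2
  have h5 : 0 ≤ τ.ms F (ρ n / 32) s := hg.mass_nn _
  have h6 : ε s ≤ √X := Real.le_sqrt_of_sq_le (by linarith)
  have h7 : √(τ.ms F (ρ n) s) ≤ √(1 + V) * √X := by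
    rw [← Real.sqrt_mul (by linarith)]
    refine Real.sqrt_le_sqrt ?_
    have h8 : τ.ms F (ρ n) s ≤ τ.ms F (ρ n / 32) s + V * ε s ^ 2 := h2
    nlinarith [sq_nonneg (e n s), mul_le_mul_of_nonneg_left (show ε s ^ 2 ≤ X by linarith) hV]
  linarith [mul_le_mul_of_nonneg_left h6 G.C0_pos.le]

end Geo

end Crest.Agent.N207.As
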