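import Crest.Agent.N207.Sk.As3
import Crest.Agent.N207.Sk.As2

/-! Row 207, final assembly, part 4 (helper87): `TOP`, `PEST`, `PHI'`, `WL'` bound the curvature. -/

set_option autoImplicit false
set_option linter.unusedSectionVars false

open scoped Manifold ContDiff Topology
open Set MeasureTheory Filter

namespace Crest.Agent.N207.As

open Sk

variable {M : Type*} [TopologicalSpace M] [ChartedSpace E4 M] [IsManifold 𝓘(ℝ, E4) ∞ M]
  [T3Space M] [ConnectedSpace M] [MeasurableSpace M] [BorelSpace M] [CompactSpace M]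

theorem err_alg {C0 C1 C' L c l l' r d d' E E' P : ℝ} (h0 : 0 < C0) (h1 : 0 < C1) (h' : 0 < C')
    (hc : 0 < c) (hl : 0 < l) (hl1 : l ≤ 1) (hl' : 0 ≤ l') (hll : l' ≤ l) (hr : 0 < r)
    (hrL : r ≤ L * l) (hd : 0 ≤ d') (hd' : d' ≤ d) (hE : 0 ≤ E') (hE' : E' ≤ E)
    (hs : 18 * (C0 + 2 * C') * L ^ 2 * l ≤ c) (hP : l ^ 4 ≤ P) (hP' : l ^ 4 * d ≤ P) :
    18 * ((C0 + 2 * C') * r ^ 2) / (c * l) * E' + 2 * d' / (c * l) * (C' * r ^ 5)
      + 2 * ((C0 + 2 * C') * r ^ 2) * (C1 * l) ^ 2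
      + (C' * r ^ 2 * ((C1 * l) ^ 2 + (C1 * l') ^ 2) + C' * r ^ 5) ≤
    E + (2 * C' * L ^ 5 / c + 2 * (C0 + 2 * C') * L ^ 2 * C1 ^ 2 + 2 * C' * L ^ 2 * C1 ^ 2
      + C' * L ^ 5) * P := by
  have hL : 0 < L := (mul_pos_iff_of_pos_right hl).1 (hr.trans_le hrL)
  have a1 : 18 * ((C0 + 2 * C') * r ^ 2) / (c * l) ≤ 1 := by
    rw [div_le_one (by positivity)]
    calc _ ≤ 18 * ((C0 + 2 * C') * (L * l) ^ 2) := by gcongr
      _ = 18 * (C0 + 2 * C') * L ^ 2 * l * l := by ring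
      _ ≤ _ := by gcongr
  have a2 : 2 * d' / (c * l) * (C' * r ^ 5) ≤ 2 * C' * L ^ 5 / c * P := by
    have := hd.trans hd'
    calc _ ≤ 2 * d / (c * l) * (C' * (L * l) ^ 5) := by gcongr
      _ = 2 * C' * L ^ 5 / c * (l ^ 4 * d) := by field_simp
      _ ≤ _ := by gcongr
  have a3 : 2 * ((C0 + 2 * C') * r ^ 2) * (C1 * l) ^ 2 ≤ 2 * (C0 + 2 * C') * L ^ 2 * C1 ^ 2 * P := by
    calc _ ≤ 2 * ((C0 + 2 * C') * (L * l) ^ 2) * (C1 * l) ^ 2 := by gcongr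
      _ = 2 * (C0 + 2 * C') * L ^ 2 * C1 ^ 2 * l ^ 4 := by ring
      _ ≤ _ := by gcongr
  have a4 : C' * r ^ 2 * ((C1 * l) ^ 2 + (C1 * l') ^ 2) ≤ 2 * C' * L ^ 2 * C1 ^ 2 * P := by
    calc _ ≤ C' * (L * l) ^ 2 * ((C1 * l) ^ 2 + (C1 * l) ^ 2) := by gcongr
      _ = 2 * C' * L ^ 2 * C1 ^ 2 * l ^ 4 := by ring
      _ ≤ _ := by gcongr
  have a5 : C' * r ^ 5 ≤ C' * L ^ 5 * P := by
    calc _ ≤ C' * (L * l) ^ 5 := by gcongr
      _ = C' * L ^ 5 * (l ^ 4 * l) := by ring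
      _ ≤ C' * L ^ 5 * (l ^ 4 * 1) := by gcongr
      _ ≤ _ := by rw [mul_one]; gcongr
  have a6 := mul_le_of_le_one_left hE a1
  linarith

namespace Geo

variable {F : Flow M} {τ : TopD M} {m m1 : ℕ} {η : ℝ} {Cs : ℕ → ℝ} {V A0 C0 C1 C' L : ℝ}
  {n0 : ℕ} {W : ℝ → Nk M → ℝ → ℝ → Prop} {ρ : ℕ → ℝ} {e : ℕ → ℝ → ℝ}
  (G : Geo F τ m m1 η Cs V A0 C0 C1 C' L n0 W ρ e)
include G

/-- the change of the action from a time of `I n` to the end of `I n` -/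
theorem step {n : ℕ} (hn : n0 ≤ n) {x p0 p1 : ℝ} (hx : x ∈ τ.I n) (h0 : W x (τ.N x) (ρ n) p0)
    (h1 : W (τ.t (n + 1)) (τ.N (τ.t (n + 1))) (ρ (n + 1)) p1) :
    2 * (∫ s in x..τ.t (n + 1), τ.ms F (ρ n / 32) s)
      - (C0 + 1) * (∫ s in τ.t n..τ.t (n + 1), e n s ^ 2)
      - (2 * C' * L ^ 5 / τ.c + 2 * (C0 + 2 * C') * L ^ 2 * C1 ^ 2 + 2 * C' * L ^ 2 * C1 ^ 2
        + C' * L ^ 5) * τ.P n ≤ p1 - p0 ∧
    p1 - p0 ≤ V * L ^ 2 * (τ.lam n ^ 2 * τ.d n) + (C0 + 1) * (∫ s in τ.t n..τ.t (n + 1), e n s ^ 2)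
      + (2 * C' * L ^ 5 / τ.c + 2 * (C0 + 2 * C') * L ^ 2 * C1 ^ 2 + 2 * C' * L ^ 2 * C1 ^ 2
        + C' * L ^ 5) * τ.P n := by
  obtain ⟨ε, e1, e2, e3, e4⟩ := G.trunc hn
  obtain ⟨r1, r5, r2, hL, r3⟩ := G.rad n
  obtain ⟨q1, q5, q2, -, q3⟩ := G.rad (n + 1)
  have r4 := G.radR hn
  have hl := lam_pos G.ok n
  have hl' := lam_pos G.ok (n + 1)
  have hK := G.ok.K_ge
  have hc := G.ok.c_pos
  have hV := G.V_nn
  have hC0 := G.C0_pos
  have hC' := G.C'_pos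
  have hls := lam_succ G.ok n
  have hI : ∀ u ∈ Ico x (τ.t (n + 1)), u ∈ τ.I n := fun u hu => ⟨hx.1.trans hu.1, hu.2⟩
  have im : ∀ {a b : ℝ}, x ≤ a → a ≤ b → b ≤ τ.t (n + 1) →
      IntervalIntegrable (τ.ms F (ρ n / 32)) volume a b :=
    fun h1 h2 h3 => ii_mono (G.im hn) (hx.1.trans h1) h2 h3
  have i2 : ∀ {a b : ℝ}, x ≤ a → a ≤ b → b ≤ τ.t (n + 1) →
      IntervalIntegrable (fun s => e n s ^ 2) volume a b :=
    fun h1 h2 h3 => ii_mono (G.ie2 n hn) (hx.1.trans h1) h2 h3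
  have ilo : ∀ {a b : ℝ}, x ≤ a → a ≤ b → b ≤ τ.t (n + 1) →
      ∫ s in a..b, (2 * τ.ms F (ρ n / 32) s - C0 * e n s ^ 2) =
        2 * (∫ s in a..b, τ.ms F (ρ n / 32) s) - C0 * ∫ s in a..b, e n s ^ 2 := fun h1 h2 h3 => by
    rw [intervalIntegral.integral_sub ((im h1 h2 h3).const_mul _) ((i2 h1 h2 h3).const_mul _),
      intervalIntegral.integral_const_mul, intervalIntegral.integral_const_mul]
  have iup : ∀ {a b : ℝ}, x ≤ a → a ≤ b → b ≤ τ.t (n + 1) →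
      ∫ s in a..b, (2 * (V * (ρ n / 8) ^ 2) + C0 * e n s ^ 2) =
        2 * (∫ _ in a..b, V * (ρ n / 8) ^ 2) + C0 * ∫ s in a..b, e n s ^ 2 := fun h1 h2 h3 => by
    rw [intervalIntegral.integral_add intervalIntegrable_const ((i2 h1 h2 h3).const_mul _),
      intervalIntegral.integral_const_mul, intervalIntegral.integral_const_mul C0]
  have hρρ : ρ n ≤ L * τ.K * ρ n :=
    le_mul_of_one_le_left r3.le (one_le_mul_of_one_le_of_one_le hL (by linarith))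
  obtain ⟨p, u, hu, hub, hp, c1, c2⟩ := chain (W := fun s u p => W s (τ.N u) (ρ n) p)
    (h0 := τ.c * τ.lam n) (A := (C0 + 2 * C') * ρ n ^ 2) (B := C' * ρ n ^ 5)
    (B0 := (C1 * τ.lam n) ^ 2) (lo := fun s => 2 * τ.ms F (ρ n / 32) s - C0 * e n s ^ 2)
    (up := fun s => 2 * (V * (ρ n / 8) ^ 2) + C0 * e n s ^ 2) (E := fun s => e n s ^ 2)
    (k := fun s => ε s ^ 2) hx.2 (by positivity) (by positivity) (by positivity)
    (((im le_rfl hx.2.le le_rfl).const_mul _).sub ((i2 le_rfl hx.2.le le_rfl).const_mul _))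
    (intervalIntegrable_const.add ((i2 le_rfl hx.2.le le_rfl).const_mul _))
    (i2 le_rfl hx.2.le le_rfl) (fun s => sq_nonneg _)
    (fun s hs => pow_le_pow_left₀ (e3 s ⟨hx.1.trans hs.1, hs.2⟩) (e2 s) 2)
    (fun s hs => pow_le_pow_left₀ (e3 s ⟨hx.1.trans hs.1, hs.2.le⟩) (e4 s hs.2) 2)
    (fun u hu s h1 h2 h3 => G.ex' hn (hI u hu) h1 h2 h3)
    (fun u hu a b p p' h1 h2 h3 h4 hp hp' => by
      have hu' := hI u hu
      have hxa : x ≤ a := hu.1.trans h1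
      obtain ⟨w1, w2⟩ := G.win (τ.N u) a b (ρ n) (e n) (ε a) (ε b) p p'
        (mem_late G.ok (hx.1.trans hxa) (h2.le.trans h4)).1 h2 (h4.trans_lt (G.ok.lt _))
        (G.ok.top n u hu') (G.ok.b_eq n u hu') (by rw [G.ok.a_eq n u hu']; exact G.ρ_lo' n)
        (G.ρ_R n hn) (fun s hs => G.ok.good n u hu' s (h1.trans hs.1) (hs.2.trans h3)
          ((hs.2.trans h4).trans_lt (G.ok.lt _)))
        (ii_mono (G.ie n hn) (hx.1.trans hxa) h2.le h4) (i2 hxa h2.le h4)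
        (fun s hs => (G.eb n hn u hu' s (h1.trans hs.1.le) (hs.2.le.trans h3)).1 (hs.2.trans_le h4))
        (e1 u hu' a h1 (h2.le.trans h3) (h2.le.trans h4)) (e1 u hu' b (h1.trans h2.le) h3 h4) hp hp'
      have hm := fun s (hs : s ∈ Ioo a b) =>
        G.cmp_mass hn hu' (h1.trans hs.1.le) (hs.2.le.trans h3) (hs.2.trans_le h4)
      have w3 := intervalIntegral.integral_mono_on_of_le_Ioo h2.le (im hxa h2.le h4) w1
        fun s hs => (hm s hs).1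
      have w4 := intervalIntegral.integral_mono_on_of_le_Ioo h2.le w1 intervalIntegrable_const
        fun s hs => (hm s hs).2
      have w5 : C0 * ρ n ^ 2 * (ε a ^ 2 + ε b ^ 2) ≤ (C0 + 2 * C') * ρ n ^ 2 * (ε a ^ 2 + ε b ^ 2) := by
        gcongr; linarith
      obtain ⟨w6, w7⟩ := abs_le.1 w2
      rw [ilo hxa h2.le h4, iup hxa h2.le h4]
      constructor <;> linarith)
    (fun u hu u' hu' s p p' h1 h2 h3 h4 hp hp' => by
      have w := G.sw s _ _ _ _ _ _ _ _ hp hp' hρρ hρρ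
        (G.ok.cmp n n u (hI u hu) u' (hI u' hu') _ (by rwa [min_self]) (by rwa [min_self]) (by
          rw [min_self, abs_sub_comm, abs_of_nonneg (by linarith)]
          linarith [mul_le_mul_of_nonneg_left (r1.trans r2) hc.le]))
        (e1 u (hI u hu) s (h1.trans h2) h3 h4.le) (e1 u' (hI u' hu') s h2 (by linarith) h4.le)
      have : 0 ≤ C0 * ρ n ^ 2 * ε s ^ 2 := by positivity
      linarith) h0
  have hb : τ.t (n + 1) ∈ τ.I (n + 1) := ⟨le_rfl, t_lt G.ok _⟩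
  have hmin : τ.K * τ.lam n ≤ min (ρ n) (ρ (n + 1)) / 64 := by
    rw [← min_div_div_right (by norm_num)]; exact le_min r2 (by rwa [hls])
  have hll : τ.lam (n + 1) ≤ τ.lam n := by rw [hls]; exact q1
  have w := G.sw _ _ _ _ _ _ _ _ _ hp h1
    ((G.ρ_up n).trans (by rw [hls, mul_assoc]; gcongr; linarith))
    ((G.ρ_up (n + 1)).trans (by
      rw [mul_assoc]
      refine mul_le_mul_of_nonneg_left ?_ (by linarith)
      nlinarith))
    (G.ok.cmp n (n + 1) u (hI u hu) _ hb _ hmin (le_trans (by gcongr) hmin) (by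
      rw [abs_sub_comm, abs_of_nonneg (by linarith [hu.2])]
      linarith [mul_le_mul_of_nonneg_left (r1.trans hmin) hc.le]))
    ((G.eb n hn u (hI u hu) _ hu.2.le hub).2 le_rfl)
    ((G.eb (n + 1) (by omega) _ hb _ le_rfl (le_add_of_nonneg_right (by positivity))).2 hb.2.le)
  have hE : ∫ s in x..τ.t (n + 1), e n s ^ 2 ≤ ∫ s in τ.t n..τ.t (n + 1), e n s ^ 2 :=
    intervalIntegral.integral_mono_interval hx.1 hx.2.le le_rfl (ae_of_all _ fun s => sq_nonneg _)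
      (G.ie2 n hn)
  have hd : τ.t (n + 1) - x ≤ τ.d n := sub_le_sub_left hx.1 _
  have a1 := err_alg (C1 := C1) hC0 G.C1_pos hC' hc hl ((r1.trans (lam_le G.ok n)).trans G.ok.R_le)
    hl'.le hll r3 (G.ρ_up n) (sub_pos.2 hx.2).le hd
    (intervalIntegral.integral_nonneg hx.2.le fun s _ => sq_nonneg (e n s)) hE (G.small n hn)
    (P_ge G.ok n).1 (P_ge G.ok n).2
  have a2 := mul_le_mul_of_nonneg_left hE hC0.le
  have a3 : 2 * (∫ _ in x..τ.t (n + 1), V * (ρ n / 8) ^ 2) ≤ V * L ^ 2 * (τ.lam n ^ 2 * τ.d n) := by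
    have h3 := (sub_pos.2 hx.2).le
    have h4 := h3.trans hd
    have h5 := G.ρ_up n
    rw [intervalIntegral.integral_const, smul_eq_mul]
    calc _ ≤ 2 * (τ.d n * (V * (L * τ.lam n / 8) ^ 2)) := by gcongr
      _ = V * L ^ 2 * (τ.lam n ^ 2 * τ.d n) * (1 / 32) := by ring
      _ ≤ _ := mul_le_of_le_one_right (by positivity) (by norm_num)
  rw [ilo le_rfl hx.2.le le_rfl] at c1
  rw [iup le_rfl hx.2.le le_rfl] at c2
  obtain ⟨w1, w2⟩ := abs_le.1 w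
  constructor <;> linarith

theorem Z_nn (n : ℕ) {x : ℝ} (hx : x ∈ τ.I n) (r : ℝ) : 0 ≤ ∫ s in x..τ.t (n + 1), τ.ms F r s :=
  intervalIntegral.integral_nonneg hx.2.le fun s hs =>
    (G.gm s (mem_late G.ok (hx.1.trans hs.1) hs.2)).mass_nn _

theorem drop {n : ℕ} (hn : n0 ≤ n) : τ.c * τ.lam n ^ 4 ≤ τ.d n * (τ.Z F ρ n + τ.lam n ^ 4) := by
  obtain ⟨r1, -, r2, -, r3⟩ := G.rad n
  have h1 := intervalIntegral.integral_mono_on (t_lt G.ok n).le (G.ok.int n _ ⟨r1, lam_le G.ok n⟩)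
    (G.im hn) fun s hs => (G.gm s (mem_late G.ok hs.1 hs.2)).mono (Om_mono _ (by linarith))
  exact (G.ok.drop n).trans (mul_le_mul_of_nonneg_left (add_le_add h1 le_rfl)
    (sub_pos.2 (t_lt G.ok n)).le)

theorem Z_le {n : ℕ} (hn : n0 ≤ n) : τ.Z F ρ n ≤ V * L ^ 2 * (τ.lam n ^ 2 * τ.d n) := by
  obtain ⟨r1, -, r2, -, r3⟩ := G.rad n
  have r4 := G.radR hn
  have hV := G.V_nn
  have hd : 0 ≤ τ.d n := (sub_pos.2 (t_lt G.ok n)).le
  have h1 := intervalIntegral.integral_mono_on_of_le_Ioo (t_lt G.ok n).le (G.im hn)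
    intervalIntegrable_const fun s hs => G.ok.zb n s ⟨hs.1.le, hs.2⟩ _ ⟨by linarith, by linarith⟩
  rw [intervalIntegral.integral_const, smul_eq_mul] at h1
  have h2 : ρ n / 32 ≤ L * τ.lam n := by linarith [G.ρ_up n]
  calc _ ≤ τ.d n * (V * (ρ n / 32) ^ 2) := h1
    _ ≤ τ.d n * (V * (L * τ.lam n) ^ 2) := by gcongr
    _ = _ := by ring

end Geo

end Crest.Agent.N207.As

namespace Crest.Agent.N207.Sk

open As

variable {M : Type*} [TopologicalSpace M] [ChartedSpace E4 M] [IsManifold 𝓘(ℝ, E4) ∞ M]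
  [T3Space M] [ConnectedSpace M] [MeasurableSpace M] [BorelSpace M] [CompactSpace M]

/-- the final assembly -/
theorem asm {F : Flow M} (hB : Base F) (hT : TOP F) (hP : PEST F) (hΦ : PHI' F) (hW : WL' F) :
    F.BddRm := by
  by_contra hn
  obtain ⟨m, η1, hη1, hΦ⟩ := hΦ
  obtain ⟨m0, η0, hη0, hP⟩ := hP m
  obtain ⟨Cs, V, τ, ok⟩ := hT hn (max m m0) (min η1 η0) (lt_min hη1 hη0)
  obtain ⟨ηa, hηa, hW⟩ := hW
  have hK := ok.K_ge
  have hK0 : 0 < τ.K := by linarith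
  have hl := lam_pos ok
  have hR : 0 < τ.R := (mul_pos hK0 (hl 0)).trans_le (lam_le ok 0)
  obtain ⟨C0, A0, V', Cs', W, hC0, hA0, hex, hwin, hadm, hsw⟩ :=
    hΦ _ _ Cs V τ.R ηa (le_max_left m m0) (min_le_left η1 η0) hR ok.R_le hηa
  set θ := min 1 (1 / (96 * (C0 + 1) * τ.K ^ 12)) with hθ
  have hθ0 : 0 < θ := lt_min one_pos (by positivity)
  obtain ⟨L, C1, n0, ρ, e, hC1, hρ, hpe⟩ := hP _ _ Cs V τ (le_max_right m m0) (min_le_right η1 η0) ok
    θ (max A0 (64 * τ.K ^ 2)) hθ0 (lt_max_of_lt_left (by linarith))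
  have ρ1 : ∀ n, A0 * τ.lam n ≤ ρ n := fun n =>
    (mul_le_mul_of_nonneg_right (le_max_left _ _) (hl n).le).trans (hρ n).1
  have ρ2 : ∀ n, τ.lam n ≤ ρ n := fun n =>
    (le_mul_of_one_le_left (hl n).le (by linarith)).trans (ρ1 n)
  have hL : 1 ≤ L := le_of_mul_le_mul_right (by linarith [ρ2 0, (hρ 0).2]) (hl 0)
  obtain ⟨C', hC', hsw⟩ := hsw (L * τ.K) (one_le_mul_of_one_le_of_one_le hL (by linarith))
  have hl0 : Tendsto τ.lam atTop (𝓝 0) :=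
    tendsto_const_nhds.div_atTop (tendsto_pow_atTop_atTop_of_one_lt (by linarith))
  have ev : ∀ B ε : ℝ, 0 < ε → ∃ N, ∀ n, N ≤ n → B * τ.lam n ≤ ε := fun B ε hε =>
    eventually_atTop.1 ((hl0.const_mul B).eventually (ge_mem_nhds (by simpa using hε)))
  obtain ⟨n2, h2⟩ := ev (A0 * L) τ.R hR
  obtain ⟨n3, h3⟩ := ev (18 * (C0 + 2 * C') * L ^ 2) τ.c ok.c_pos
  set n1 := max n0 (max n2 n3) + 2 with hn1
  have sh : ∀ n, n1 ≤ n → ∃ k, n0 ≤ k ∧ n = k + 2 := fun n h => ⟨n - 2, by omega, by omega⟩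
  have G : Geo F τ m _ _ Cs V A0 C0 C1 C' L n1 W ρ e :=
    ⟨fun s hs => gm_of hB hs, ok, hC0, hC1, hC', hA0,
      fun n => (mul_le_mul_of_nonneg_right (le_max_right _ _) (hl n).le).trans (hρ n).1, ρ1,
      fun n => (hρ n).2,
      fun n h => (mul_le_mul_of_nonneg_left (hρ n).2 (by linarith)).trans
        (by rw [← mul_assoc]; exact h2 n (by omega)),
      fun n h => h3 n (by omega), hex, hwin, hsw,
      fun n h => by obtain ⟨k, hk, rfl⟩ := sh n h; exact (hpe k hk).1,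
      fun n h => by obtain ⟨k, hk, rfl⟩ := sh n h; exact (hpe k hk).2.1,
      fun n h => by obtain ⟨k, hk, rfl⟩ := sh n h; exact (hpe k hk).2.2.1⟩
  have hI : ∀ n, τ.t n ∈ τ.I n := fun n => ⟨le_rfl, t_lt ok n⟩
  have hc : ∀ n, 0 ≤ τ.c * τ.lam n := fun n => (mul_pos ok.c_pos (hl n)).le
  choose! p hp using fun n (h : n1 ≤ n) =>
    G.ex' h (hI n) le_rfl (le_add_of_nonneg_right (hc n)) (hI n).2.le
  choose! s hs ε e0 e1 e2 e3 e4 using fun n (h : n1 ≤ n) => G.good h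
  choose! q hq using fun n (h : n1 ≤ n) =>
    G.ex' h (hs n h) le_rfl (le_add_of_nonneg_right (hc n)) (hs n h).2.le
  have hV := G.V_nn
  have hcp := ok.c_pos
  set C2 := 2 * C' * L ^ 5 / τ.c + 2 * (C0 + 2 * C') * L ^ 2 * C1 ^ 2 + 2 * C' * L ^ 2 * C1 ^ 2
    + C' * L ^ 5 with hC2
  have hC20 : 0 ≤ C2 := by positivity
  have hVL : 0 ≤ V * L ^ 2 := by positivity
  have hCL : 0 ≤ C0 * L ^ 2 := by positivity
  set C := C1 + V * L ^ 2 + C0 * L ^ 2 + C2 with hC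
  have hd : ∀ n, 0 < τ.d n := fun n => sub_pos.2 (t_lt ok n)
  have hP0 : ∀ n, 0 ≤ τ.P n := fun n => le_trans (by positivity) (P_ge ok n).1
  have b1 : ∀ n, C2 * τ.P n ≤ C * τ.P n := fun n => mul_le_mul_of_nonneg_right (by linarith) (hP0 n)
  have b2 : ∀ n, V * L ^ 2 * (τ.lam n ^ 2 * τ.d n) ≤ C * (τ.lam n ^ 2 * τ.d n) := fun n =>
    mul_le_mul_of_nonneg_right (by linarith) (mul_pos (pow_pos (hl n) 2) (hd n)).le
  have sp := fun n (h : n1 + 2 ≤ n) => G.step (by omega) (hI n) (hp n (by omega)) (hp (n + 1) (by omega))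
  have sq := fun n (h : n1 + 2 ≤ n) =>
    G.step (by omega) (hs n (by omega)) (hq n (by omega)) (hp (n + 1) (by omega))
  refine Dis.false (K := τ.K) (l0 := τ.l0) (c := τ.c) (CE := C0 + 1) (C := C) (θ := θ) (n1 := n1)
    (d := τ.d) (be := τ.be) (Z := τ.Z F ρ) (E := fun n => ∫ s in τ.t n..τ.t (n + 1), e n s ^ 2)
    (P := τ.P) (p := p) (q := q)
    ⟨by linarith, ok.l0_pos, hcp, by linarith, by linarith, hθ0.le, min_le_left _ _, ?_, ok.d_ge, ?_,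
      fun n => ?_, fun n => rfl, fun n => G.Z_nn n (hI n) _, fun n h => G.drop h,
      fun n h => (G.Z_le h).trans (b2 n), fun n h => ?_, fun n h => ?_, fun n h => ?_, fun n h => ?_,
      fun n h => ?_, fun n h => ?_, fun η hη => ?_⟩
  · have h4 : θ ≤ 1 / (96 * (C0 + 1) * τ.K ^ 12) := min_le_right _ _
    rw [le_div_iff₀ (by positivity)] at h4
    linarith
  · refine summable_of_sum_range_le (c := F.T - τ.t 0) (fun n => (hd n).le) fun n => ?_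
    unfold TopD.d
    rw [Finset.sum_range_sub]
    linarith [ok.lt n]
  · unfold TopD.be TopD.mem mm
    congr 2
    refine Finset.sum_congr rfl fun j _ => ?_
    rw [Real.sqrt_eq_rpow, Real.rpow_neg (hd _).le, div_eq_mul_inv]; rfl
  · refine (hpe n (by omega)).2.2.2.trans (add_le_add le_rfl (mul_le_mul_of_nonneg_right (by linarith) ?_))
    linarith [hP0 n, hP0 (n + 1), hP0 (n + 2)]
  · refine (hadm _ _ _ _ (hp n (by omega))).1.trans ?_
    have := (hρ n).2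
    have := (hl n).trans_le (ρ2 n)
    calc _ ≤ C0 * (L * τ.lam n) ^ 2 := by gcongr
      _ = C0 * L ^ 2 * τ.lam n ^ 2 := by ring
      _ ≤ C * τ.lam n ^ 2 := mul_le_mul_of_nonneg_right (by linarith) (sq_nonneg _)
  · exact le_trans (sub_le_sub_left (b1 n) _) (sp n h).1
  · exact (sp n h).2.trans (add_le_add (add_le_add (b2 n) le_rfl) (b1 n))
  · linarith [(sq n h).1, b1 n, G.Z_nn n (hs n (by omega)) (ρ n / 32)]
  · exact (sq n h).2.trans (add_le_add (add_le_add (b2 n) le_rfl) (b1 n))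
  · have hS : 0 < √(1 + V) + C0 := by positivity
    obtain ⟨δ, Cw, hδ, hCw, hw⟩ := hW Cs' V' (η / (L ^ 2 * (√(1 + V) + C0))) (by positivity)
    obtain ⟨k1, g1⟩ := ev L δ hδ
    obtain ⟨k2, g2⟩ := ev (C0 * C1) δ hδ
    obtain ⟨k3, g3⟩ := ev (√V * L) δ hδ
    refine ⟨δ, hδ, Cw * L ^ 4, by positivity, max n1 (max k1 (max k2 k3)), fun n h hqn => ?_⟩
    have h1 : n1 ≤ n := by omega
    have r0 := (hl n).trans_le (ρ2 n)
    have r1 := (hρ n).2
    have r2 := ρ2 n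
    have r3 := hl n
    have w := hw (s n) (mem_late ok (hs n h1).1 (hs n h1).2.le) (ρ n) (C0 * ε n) _ (q n) r0
      (r1.trans (g1 n (by omega))) (mul_nonneg hC0.le (e0 n h1))
      ((mul_le_mul_of_nonneg_left (e1 n h1) hC0.le).trans (by rw [← mul_assoc]; exact g2 n (by omega)))
      (Real.sqrt_nonneg _) ((Real.sqrt_le_sqrt (e3 n h1)).trans (by
        rw [Real.sqrt_mul hV, Real.sqrt_sq r0.le]
        exact (mul_le_mul_of_nonneg_left r1 (Real.sqrt_nonneg V)).trans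
          (by rw [← mul_assoc]; exact g3 n (by omega))))
      (hqn.trans (by change δ * τ.lam n ^ 2 ≤ _; gcongr)) ((hadm _ _ _ _ (hq n h1)).2 _ (e2 n h1))
    refine w.trans ?_
    have h4 := e4 n h1
    change _ ≤ η * τ.lam n ^ 2 * _ + Cw * L ^ 4 * τ.lam n ^ 4
    calc _ ≤ η / (L ^ 2 * (√(1 + V) + C0)) * (L * τ.lam n) ^ 2 * ((√(1 + V) + C0) *
          √((τ.Z F ρ n + ∫ s in τ.t n..τ.t (n + 1), e n s ^ 2) / τ.d n)) + Cw * (L * τ.lam n) ^ 4 := by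
          have := mul_nonneg hC0.le (e0 n h1)
          gcongr
      _ = _ := by field_simp

end Crest.Agent.N207.Sk
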