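import Crest.Agent.N207.Sk.As4
import Crest.Agent.N207.A.Alg
import Crest.Agent.N207.A.Cevo
import Crest.Agent.N207.V.Intg
import Crest.Agent.N207.V.Gv3
import Crest.Agent.N207.AI.Evo
import Crest.Agent.N207.P.Heat
import Crest.Agent.N207.C.DistM
import Crest.Agent.N207.SB.Sob
import Crest.Agent.N207.SB.Bump
import Crest.Agent.N207.E.Out
import Crest.Agent.N207.X.Glue
import Crest.Agent.N207.B.Ste3
import Crest.Agent.N207.B.Bridge

/-!
# Row 207 (helper40): the blocks A - E glued; the statement modulo four blocks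
-/

set_option autoImplicit false
set_option linter.unusedSectionVars false

open scoped ContDiff Manifold Topology
open Set MeasureTheory Filter
open Crest.GeometryTopology.CoordMetric Crest.GeometryTopology.ChartCurvature
  Crest.GeometryTopology.MetricFamily

noncomputable section

namespace Crest.Agent.N207.Sk

section

variable {M : Type*} [TopologicalSpace M] [ChartedSpace E4 M] [IsManifold 𝓘(ℝ, E4) ∞ M]
  [T3Space M] [ConnectedSpace M] [MeasurableSpace M] [BorelSpace M] [CompactSpace M]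
  [SecondCountableTopology M]

theorem hc_ok (F : Flow M) {C : ℝ} (hC : F.BddR C) : F.hc.Ok where
  alg := F.alg
  int := V.intg F
  evo := AI.evo F F.alg (A.cevo 4) hC
  solv := F.hc_solv
  dist := F.hc_dist
  sob0 := SB.sob0 F
  bump := SB.bump F F.alg
  gbv := V.gbv F

/-- the blocks A - E -/
theorem base (F : Flow M) {C : ℝ} (hC : F.BddR C) : Base F := by
  obtain ⟨c, d, p, e⟩ := HC.cde (hc_ok F hC) F.hc_solv2
  exact ⟨hc_ok F hC, F.hc_solv2, c, d, p, e⟩

/-- bounded curvature gives the extension -/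
theorem extends_of_bddRm (F : Flow M) (hB : Base F) (h : F.BddRm) : F.Extends := by
  refine F.extends_of_shi (fun j => ?_) fun m₀ => B.ste' m₀
  obtain ⟨C, hC⟩ := F.shi hB.ok.evo h j
  exact ⟨C, fun t ht x => hC t ⟨by linarith [ht.1, F.hT], ht.2⟩ x⟩

theorem extends_of (F : Flow M) {C : ℝ} (hC : F.BddR C) (hT : TOP F) (hP : PEST F) (hΦ : PHI' F)
    (hW : WL' F) : F.Extends :=
  extends_of_bddRm F (base F hC) (asm (base F hC) hT hP hΦ hW)

end

/-- the statement, from the four blocks -/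
theorem s0319_mod (M : Type*) [TopologicalSpace M] [T2Space M] [SecondCountableTopology M]
    [CompactSpace M] [ConnectedSpace M] [ChartedSpace E4 M] [IsManifold 𝓘(ℝ, E4) ∞ M]
    (H : ∀ [T3Space M] [MeasurableSpace M] [BorelSpace M] (F : Flow M) (C : ℝ), F.BddR C → Base F →
      TOP F ∧ PEST F ∧ PHI' F ∧ WL' F)
    (T : ℝ) (hT : 0 < T) (g : FormFamily 𝓘(ℝ, E4) M)
    (hg : IsRicciFlowOn 𝓘(ℝ, E4) (ContinuousLinearEquiv.refl ℝ E4) M g T)
    (hR : HasBoundedScalarCurvature 𝓘(ℝ, E4) (ContinuousLinearEquiv.refl ℝ E4) M g T) :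
    ∃ ε : ℝ, 0 < ε ∧ ∃ g' : FormFamily 𝓘(ℝ, E4) M,
      IsRicciFlowOn 𝓘(ℝ, E4) (ContinuousLinearEquiv.refl ℝ E4) M g' (T + ε) ∧
        ∀ t ∈ Set.Ico 0 T, g' t = g t := by
  letI : MeasurableSpace M := borel M
  haveI : BorelSpace M := ⟨rfl⟩
  refine s0319_of (fun F C hC => ?_) T hT g hg hR
  obtain ⟨h1, h2, h3, h4⟩ := H F C hC (base F hC)
  exact extends_of F hC h1 h2 h3 h4

end Crest.Agent.N207.Sk

end
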