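import Crest.Agent.N207.Sk.Base
import Crest.Agent.N207.G.Main
import Crest.Agent.N207.H.Main
import Crest.Agent.N207.T.TopB
import Crest.Agent.N207.NP.Fin
import Crest.Agent.N207.I.Wl2

/-!
# Row 207 (helper40): the statement modulo `PHI'` and `SWL'`
-/

set_option autoImplicit false
set_option linter.unusedSectionVars false

open scoped ContDiff Manifold Topology
open Set MeasureTheory Filter
open Crest.GeometryTopology.CoordMetric Crest.GeometryTopology.ChartCurvature
  Crest.GeometryTopology.MetricFamily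

noncomputable section

namespace Crest.Agent.N207.Sk

/-- the statement, from the two blocks `PHI'` and `SWL'` -/
theorem s0319_mod2 (M : Type*) [TopologicalSpace M] [T2Space M] [SecondCountableTopology M]
    [CompactSpace M] [ConnectedSpace M] [ChartedSpace E4 M] [IsManifold 𝓘(ℝ, E4) ∞ M]
    (HΦ : ∀ [T3Space M] [MeasurableSpace M] [BorelSpace M] (F : Flow M) (C : ℝ), F.BddR C → Base F →
      PHI' F) (HS : SWL' M)
    (T : ℝ) (hT : 0 < T) (g : FormFamily 𝓘(ℝ, E4) M)
    (hg : IsRicciFlowOn 𝓘(ℝ, E4) (ContinuousLinearEquiv.refl ℝ E4) M g T)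
    (hR : HasBoundedScalarCurvature 𝓘(ℝ, E4) (ContinuousLinearEquiv.refl ℝ E4) M g T) :
    ∃ ε : ℝ, 0 < ε ∧ ∃ g' : FormFamily 𝓘(ℝ, E4) M,
      IsRicciFlowOn 𝓘(ℝ, E4) (ContinuousLinearEquiv.refl ℝ E4) M g' (T + ε) ∧
        ∀ t ∈ Set.Ico 0 T, g' t = g t :=
  s0319_mod M (fun F C hC hB => ⟨N207.T.topB hB (G.cone' hB), NP.pestF hB, HΦ F C hC hB,
    I.wl' hB (G.cone' hB) (H.hdec hB) HS⟩) T hT g hg hR

end Crest.Agent.N207.Sk

end
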